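import Vale.Agent.P284.H409.GrpA

/-!
# P284, theorem A (helper409): the rank of the abelian subgroup of finite index is at most `2 n`.
-/

open scoped commutatorElement Pointwise Topology Manifold ContDiff
open Set Metric

noncomputable section

namespace Vale.Agent.P284.H409.A

open Vale.Agent.P272.K Vale.Agent.P284.H248 Vale.Agent.P284.H894.V Vale.Agent.P284.H894.G
  Vale.Agent.P284.H894.W Vale.Agent.P284.H409

/-- an abelian subgroup of finite index, generated by at most `m` elements -/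
def VAr (Q : Type*) [Group Q] (m : ℕ) : Prop :=
  ∃ A : Subgroup Q, A.FiniteIndex ∧ (∀ a ∈ A, ∀ b ∈ A, a * b = b * a) ∧
    ∃ S : Finset Q, S.card ≤ m ∧ Subgroup.closure (S : Set Q) = A

theorem VAr.va {Q : Type*} [Group Q] {m : ℕ} (h : VAr Q m) : VirtuallyAbelian Q := by
  obtain ⟨A, h1, h2, -⟩ := h
  exact ⟨A, h1, h2⟩

theorem VAr.mono {Q : Type*} [Group Q] {m k : ℕ} (h : VAr Q m) (hk : m ≤ k) : VAr Q k := by
  obtain ⟨A, h1, h2, S, h3, h4⟩ := h
  exact ⟨A, h1, h2, S, h3.trans hk, h4⟩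

theorem fin_of_comm {C : Type*} [Group C] [hfg : Group.FG C] (hc : ∀ a b : C, a * b = b * a)
    (ht : ∀ x : C, ∃ n : ℕ, 0 < n ∧ x ^ n = 1) : Finite C := by
  let _ : CommGroup C := { (inferInstance : Group C) with mul_comm := hc }
  refine CommGroup.finite_of_fg_isMulTorsion C ?_
  intro x
  rw [isOfFinOrder_iff_pow_eq_one]
  exact ht x

theorem fi_of_pow {G : Type*} [Group G] [Group.FG G] (B : Subgroup G)
    (hB : ∀ g h : G, ⁅g, h⁆ ∈ B) (hp : ∀ x : G, ∃ n : ℕ, 0 < n ∧ x ^ n ∈ B) : B.FiniteIndex := by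
  have hBn : B.Normal := by
    constructor
    intro b hb x
    have e : x * b * x⁻¹ = ⁅x, b⁆ * b := by simp [commutatorElement_def]
    rw [e]
    exact mul_mem (hB x b) hb
  have hfgq : Group.FG (G ⧸ B) := Group.fg_of_surjective (QuotientGroup.mk'_surjective B)
  have hfin : Finite (G ⧸ B) := by
    refine fin_of_comm ?_ ?_
    · intro a b
      obtain ⟨a, rfl⟩ := QuotientGroup.mk'_surjective B a
      obtain ⟨b, rfl⟩ := QuotientGroup.mk'_surjective B b
      rw [← map_mul, ← map_mul]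
      rw [QuotientGroup.mk'_apply, QuotientGroup.mk'_apply, QuotientGroup.eq]
      have e : (a * b)⁻¹ * (b * a) = ⁅b⁻¹, a⁻¹⁆ := by
        simp only [commutatorElement_def]; group
      rw [e]; exact hB _ _
    · intro x
      obtain ⟨x, rfl⟩ := QuotientGroup.mk'_surjective B x
      obtain ⟨n, hn, h⟩ := hp x
      refine ⟨n, hn, ?_⟩
      rw [← map_pow]
      exact (QuotientGroup.eq_one_iff _).2 h
  exact Subgroup.finiteIndex_of_finite_quotient

/-- the group theory -/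
theorem gen_bound {G : Type*} [Group G] [Group.FG G] (K : Subgroup G) [Finite K]
    (hKc : ∀ g h : G, ⁅g, h⁆ ∈ K) {ι : Type*} [Fintype ι] (g : ι → G)
    (hgen : ∀ x : G, ∃ y ∈ Subgroup.closure (Set.range g), y⁻¹ * x ∈ K) :
    ∃ A : Subgroup G, A.FiniteIndex ∧ (∀ a ∈ A, ∀ b ∈ A, a * b = b * a) ∧
      ∃ S : Finset G, S.card ≤ Fintype.card ι ∧ Subgroup.closure (S : Set G) = A := by
  classical
  obtain ⟨A1, hA1, -, hA1c⟩ := finite_by_abelian K ⊥ (by
    rw [Subgroup.relIndex_bot_left]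
    exact Nat.card_pos.ne') hKc
  -- a power in `A1`
  have hpow : ∀ i, ∃ m : ℕ, 0 < m ∧ g i ^ m ∈ A1 := by
    intro i
    obtain ⟨m, hm, -, h⟩ := Subgroup.exists_pow_mem_of_index_ne_zero hA1.index_ne_zero (g i)
    exact ⟨m, hm, h⟩
  choose m hm hgm using hpow
  let S : Finset G := Finset.univ.image fun i => g i ^ m i
  have hSm : ∀ i, g i ^ m i ∈ (S : Set G) := by
    intro i
    simp only [S, Finset.coe_image, Finset.coe_univ, Set.image_univ, Set.mem_range]
    exact ⟨i, rfl⟩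
  have hS1 : (S : Set G) ⊆ A1 := by
    intro x hx
    simp only [S, Finset.coe_image, Finset.coe_univ, Set.image_univ, Set.mem_range] at hx
    obtain ⟨i, rfl⟩ := hx
    exact hgm i
  have hcl : Subgroup.closure (S : Set G) ≤ A1 := (Subgroup.closure_le A1).2 hS1
  have hA1c' : ∀ a ∈ A1, ∀ b ∈ A1, a * b = b * a := by
    intro a ha b hb
    have h1 := hA1c a ha b hb
    rw [Subgroup.mem_bot, commutatorElement_eq_one_iff_mul_comm] at h1
    exact h1
  refine ⟨Subgroup.closure (S : Set G), ?_, fun a ha b hb => hA1c' a (hcl ha) b (hcl hb), S, ?_,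
    rfl⟩
  swap
  · exact Finset.card_image_le.trans (by rw [Finset.card_univ])
  have hAcc : ∀ i, g i ^ m i ∈ Subgroup.closure (S : Set G) := fun i =>
    Subgroup.subset_closure (hSm i)
  generalize Subgroup.closure (S : Set G) = A at hcl hAcc
  have hBf : (A ⊔ K).FiniteIndex := by
    have hcB : ∀ g h : G, ⁅g, h⁆ ∈ A ⊔ K := fun g h => le_sup_right (a := A) (hKc g h)
    have hpm : ∀ x y : G, (∃ n : ℕ, 0 < n ∧ x ^ n ∈ A ⊔ K) → (∃ n : ℕ, 0 < n ∧ y ^ n ∈ A ⊔ K) →
        ∃ n : ℕ, 0 < n ∧ (x * y) ^ n ∈ A ⊔ K := by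
      rintro x y ⟨n, hn, hx⟩ ⟨k, hk, hy⟩
      have hBn : (A ⊔ K).Normal := by
        constructor
        intro b hb x
        have e : x * b * x⁻¹ = ⁅x, b⁆ * b := by simp [commutatorElement_def]
        rw [e]
        exact mul_mem (hcB x b) hb
      refine ⟨n * k, Nat.mul_pos hn hk, ?_⟩
      have hcc : Commute ((x : G) : G ⧸ (A ⊔ K)) ((y : G) : G ⧸ (A ⊔ K)) := by
        show ((x : G) : G ⧸ (A ⊔ K)) * (y : G ⧸ (A ⊔ K)) = (y : G ⧸ (A ⊔ K)) * (x : G ⧸ (A ⊔ K))
        rw [← QuotientGroup.mk_mul, ← QuotientGroup.mk_mul, QuotientGroup.eq]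
        have e : (x * y)⁻¹ * (y * x) = ⁅y⁻¹, x⁻¹⁆ := by
          simp only [commutatorElement_def]; group
        rw [e]; exact hcB _ _
      rw [← QuotientGroup.eq_one_iff, QuotientGroup.mk_pow, QuotientGroup.mk_mul, hcc.mul_pow]
      have h1 : ((x : G) : G ⧸ (A ⊔ K)) ^ n = 1 := by
        rw [← QuotientGroup.mk_pow]; exact (QuotientGroup.eq_one_iff _).2 hx
      have h2 : ((y : G) : G ⧸ (A ⊔ K)) ^ k = 1 := by
        rw [← QuotientGroup.mk_pow]; exact (QuotientGroup.eq_one_iff _).2 hy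
      rw [pow_mul, h1, one_pow, mul_comm n k, pow_mul, h2, one_pow, mul_one]
    refine fi_of_pow _ hcB ?_
    intro x
    obtain ⟨y, hy, hyx⟩ := hgen x
    have hyp : ∃ n : ℕ, 0 < n ∧ y ^ n ∈ A ⊔ K := by
      clear hyx
      induction hy using Subgroup.closure_induction with
      | mem x hx =>
        obtain ⟨i, rfl⟩ := hx
        exact ⟨m i, hm i, le_sup_left (a := A) (hAcc i)⟩
      | one => exact ⟨1, one_pos, by rw [one_pow]; exact one_mem _⟩
      | mul x y _ _ hx hy => exact hpm x y hx hy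
      | inv x _ hx =>
        obtain ⟨n, hn, h⟩ := hx
        exact ⟨n, hn, by rw [inv_pow]; exact inv_mem h⟩
    have e : x = y * (y⁻¹ * x) := by group
    rw [e]
    refine hpm _ _ hyp ⟨1, one_pos, ?_⟩
    rw [pow_one]; exact le_sup_right (a := A) hyx
  -- `A` has finite index in `A ⊔ K`
  have hKn : K.Normal := by
    constructor
    intro k hk g
    have e : g * k * g⁻¹ = ⁅g, k⁆ * k := by simp [commutatorElement_def]
    rw [e]; exact mul_mem (hKc g k) hk
  have h1 : A.relIndex (A ⊔ K) ≠ 0 := by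
    have hsurj : Function.Surjective (fun k : K =>
        (QuotientGroup.mk (⟨k, le_sup_right (a := A) k.2⟩ : (A ⊔ K : Subgroup G)) :
          (A ⊔ K : Subgroup G) ⧸ A.subgroupOf (A ⊔ K))) := by
      intro x
      obtain ⟨⟨x, hx⟩, rfl⟩ := QuotientGroup.mk_surjective x
      obtain ⟨a, ha, k, hk, rfl⟩ := Subgroup.mem_sup_of_normal_right.1 hx
      refine ⟨⟨a * k * a⁻¹, hKn.conj_mem k hk a⟩, ?_⟩
      refine QuotientGroup.eq.2 ?_
      rw [Subgroup.mem_subgroupOf]
      have e : ((((⟨a * k * a⁻¹, le_sup_right (a := A) (hKn.conj_mem k hk a)⟩ :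
          (A ⊔ K : Subgroup G)))⁻¹ * ⟨a * k, hx⟩ : (A ⊔ K : Subgroup G)) : G) = a := by
        show (a * k * a⁻¹)⁻¹ * (a * k) = a
        group
      rw [e]; exact ha
    have hf : Finite ((A ⊔ K : Subgroup G) ⧸ A.subgroupOf (A ⊔ K)) := Finite.of_surjective _ hsurj
    exact Subgroup.index_ne_zero_of_finite
  have h2 : A.index = A.relIndex (A ⊔ K) * (A ⊔ K).index :=
    (Subgroup.relIndex_mul_index (le_sup_left : A ≤ A ⊔ K)).symm
  refine ⟨?_⟩
  rw [h2]
  exact mul_ne_zero h1 hBf.index_ne_zero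

section
variable {Γ Q : Type} [Group Γ] [Group Q]

theorem finR (q : Γ →* Q) (hq : Function.Surjective q) (hfg : Group.FG Γ)
    (G K : Subgroup Γ) (hGi : G.FiniteIndex) (N : ℕ) (c : Γ → Cm N)
    (hc : ∀ g ∈ G, ∀ h ∈ G, c (g * h) = c g + c h) (hK : ∀ g, g ∈ K ↔ g ∈ G ∧ c g = 0)
    (hd : ∀ R : ℝ, {v | (∃ g ∈ G, c g = v) ∧ ‖v‖ ≤ R}.Finite)
    (hs : Submodule.span ℝ (c '' (G : Set Γ)) = ⊤) (hfin : Finite (K.map q)) : VAr Q (2 * N) := by
  classical
  have hKG : K ≤ G := fun g hg => ((hK g).1 hg).1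
  have hQfg : Group.FG Q := Group.fg_of_surjective hq
  have hMi := map_fi hq hGi
  have hMfg : Group.FG (G.map q) := Subgroup.fg_of_index_ne_zero _
  let KG : Subgroup (G.map q) := (K.map q).subgroupOf (G.map q)
  have hKGf : Finite KG :=
    Finite.of_equiv _ (Subgroup.subgroupOfEquivOfLe (Subgroup.map_mono hKG)).symm.toEquiv
  -- the lattice
  have hc1 : c 1 = 0 := c_one hc
  let L : Submodule ℤ (Cm N) := AddSubgroup.toIntSubmodule
    { carrier := c '' (G : Set Γ)
      add_mem' := by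
        rintro _ _ ⟨g, hg, rfl⟩ ⟨h, hh, rfl⟩
        exact ⟨g * h, mul_mem hg hh, hc g hg h hh⟩
      zero_mem' := ⟨1, one_mem _, hc1⟩
      neg_mem' := by rintro _ ⟨g, hg, rfl⟩; exact ⟨g⁻¹, inv_mem hg, c_inv hc hg⟩ }
  have hmem : ∀ x : L, ∃ g ∈ G, c g = (x : Cm N) := fun x => x.2
  have hLc : (L : Set (Cm N)) = c '' (G : Set Γ) := rfl
  have : DiscreteTopology L := by
    refine discreteTopology_of_isOpen_singleton_zero ?_
    refine isOpen_singleton_of_finite_mem_nhds 0 (s := Metric.closedBall 0 1) ?_ ?_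
    · exact Metric.closedBall_mem_nhds _ one_pos
    · refine Set.Finite.of_injOn (t := {v : Cm N | (∃ g ∈ G, c g = v) ∧ ‖v‖ ≤ 1})
        (f := Subtype.val) ?_ Subtype.val_injective.injOn (hd 1)
      intro x hx
      refine ⟨hmem x, ?_⟩
      have := mem_closedBall_zero_iff.1 hx
      exact this
  have : IsZLattice ℝ L := ⟨by rw [hLc]; exact hs⟩
  have : Module.Finite ℤ L := ZLattice.module_finite ℝ L
  let b := Module.Free.chooseBasis ℤ L
  let bR := b.ofZLatticeBasis ℝ L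
  have hcard : Fintype.card (Module.Free.ChooseBasisIndex ℤ L) = 2 * N := by
    rw [← Module.finrank_eq_card_basis bR, finrank_real_of_complex]
    simp
  choose s hsG hsec using hmem
  have key : ∀ v : L, ∃ y ∈ Subgroup.closure (Set.range fun i => s (b i)), y ∈ G ∧
      c y = (v : Cm N) := by
    intro v
    have hv : v ∈ Submodule.span ℤ (Set.range b) := by rw [b.span_eq]; trivial
    induction hv using Submodule.span_induction with
    | mem x hx =>
      obtain ⟨i, rfl⟩ := hx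
      exact ⟨s (b i), Subgroup.subset_closure ⟨i, rfl⟩, hsG _, hsec _⟩
    | zero => exact ⟨1, one_mem _, one_mem _, hc1⟩
    | add x y _ _ hx hy =>
      obtain ⟨x', hx1, hx2, hx3⟩ := hx
      obtain ⟨y', hy1, hy2, hy3⟩ := hy
      exact ⟨x' * y', mul_mem hx1 hy1, mul_mem hx2 hy2, by rw [hc _ hx2 _ hy2, hx3, hy3]; rfl⟩
    | smul a x _ hx =>
      obtain ⟨x', hx1, hx2, hx3⟩ := hx
      refine ⟨x' ^ a, zpow_mem hx1 a, zpow_mem hx2 a, ?_⟩
      have hz : ∀ a : ℤ, c (x' ^ a) = a • c x' := by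
        intro a
        cases a with
        | ofNat m => 
          rw [Int.ofNat_eq_natCast, zpow_natCast, c_pow hc hx2]
          simp [Nat.cast_smul_eq_nsmul]
        | negSucc m =>
          rw [zpow_negSucc, c_inv hc (pow_mem hx2 _), c_pow hc hx2, Int.negSucc_eq, neg_smul]
          congr 1
          rw [Nat.cast_smul_eq_nsmul]
          norm_cast
      rw [hz, hx3]; rfl
  have hcm : ∀ i, q (s (b i)) ∈ G.map q := fun i => ⟨_, hsG _, rfl⟩
  obtain ⟨A, hA, hAc, S, hS, hSA⟩ := gen_bound KG (comm_im hc hK)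
    (fun i => (⟨q (s (b i)), hcm i⟩ : G.map q)) (by
      rintro ⟨_, x, hx, rfl⟩
      obtain ⟨y, hy, hyG, hyx⟩ := key ⟨c x, x, hx, rfl⟩
      refine ⟨⟨q y, y, hyG, rfl⟩, ?_, ?_⟩
      · have h1 : ∀ y ∈ Subgroup.closure (Set.range fun i => s (b i)), ∃ h : q y ∈ G.map q,
            (⟨q y, h⟩ : G.map q) ∈
              Subgroup.closure (Set.range fun i => (⟨q (s (b i)), hcm i⟩ : G.map q)) := by
          intro y hy
          induction hy using Subgroup.closure_induction with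
          | mem x hx =>
            obtain ⟨i, rfl⟩ := hx
            exact ⟨hcm i, Subgroup.subset_closure ⟨i, rfl⟩⟩
          | one => 
            have e : (⟨q 1, by rw [map_one]; exact one_mem _⟩ : G.map q) = 1 :=
              Subtype.ext (map_one q)
            exact ⟨by rw [map_one]; exact one_mem _, by rw [e]; exact one_mem _⟩
          | mul x y _ _ hx hy =>
            obtain ⟨hx1, hx2⟩ := hx
            obtain ⟨hy1, hy2⟩ := hy
            have hxy : q (x * y) ∈ G.map q := by rw [map_mul]; exact mul_mem hx1 hy1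
            have e : (⟨q (x * y), hxy⟩ : G.map q) = ⟨q x, hx1⟩ * ⟨q y, hy1⟩ :=
              Subtype.ext (map_mul q _ _)
            exact ⟨hxy, by rw [e]; exact mul_mem hx2 hy2⟩
          | inv x _ hx =>
            obtain ⟨hx1, hx2⟩ := hx
            have hxi : q x⁻¹ ∈ G.map q := by rw [map_inv]; exact inv_mem hx1
            have e : (⟨q x⁻¹, hxi⟩ : G.map q) = (⟨q x, hx1⟩)⁻¹ := Subtype.ext (map_inv q _)
            exact ⟨hxi, by rw [e]; exact inv_mem hx2⟩
        exact (h1 y hy).2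
      · rw [Subgroup.mem_subgroupOf]
        refine ⟨y⁻¹ * x, (hK _).2 ⟨mul_mem (inv_mem hyG) hx, ?_⟩, ?_⟩
        · rw [hc _ (inv_mem hyG) _ hx, c_inv hc hyG, hyx, neg_add_cancel]
        · rw [map_mul, map_inv]; rfl)
  refine ⟨A.map (G.map q).subtype, ?_, ?_, S.image Subtype.val, ?_, ?_⟩
  · rw [Subgroup.finiteIndex_iff, Subgroup.index_map_subtype]
    exact mul_ne_zero hA.index_ne_zero hMi.index_ne_zero
  · rintro _ ⟨x, hx, rfl⟩ _ ⟨y, hy, rfl⟩
    exact congrArg Subtype.val (hAc x hx y hy)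
  · exact Finset.card_image_le.trans (hS.trans hcard.le)
  · rw [← hSA, MonoidHom.map_closure, Finset.coe_image]; rfl

end

/-! ### The theorems with the rank -/

/-- the rank of the Albanese map is at most `n` -/
theorem rank_le (hR : RankStmt2) (hL : LiftStmt)
    {n : ℕ} {X : Type} [TopologicalSpace X] [T2Space X] [CompactSpace X] [ConnectedSpace X]
    [ChartedSpace (Cm n) X] [IsManifold 𝓘(ℂ, Cm n) ω X]
    {w : Chart n X → Cm n → Matrix (Fin n) (Fin n) ℂ} (hw : IsKahler w)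
    {Φ : Cm n → X} (hΦ : FiniteOrder w Φ)
    {E Γ : Type} [TopologicalSpace E] [SimplyConnectedSpace E] [Group Γ] [MulAction Γ E]
    {p : E → X} (hp : IsGalois Γ p) {G K : Subgroup Γ} {N : ℕ} {F : E → Cm N} {c : Γ → Cm N}
    (hAl : Alb p w G K F c) : N ≤ n := by
  obtain ⟨Φl, hΦl, hpΦ⟩ := hL n X E p hp.cov hp.surj Φ hΦ.holo.continuous
  obtain ⟨P, -, ζ, -, -, hζ⟩ := hR n X w hw Φ hΦ E Γ p hp G K N F c hAl Φl hΦl hpΦ
  have := LinearMap.finrank_le_finrank_of_surjective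
    (f := (fderiv ℂ (fun ζ => F (Φl ζ)) ζ).toLinearMap) hζ
  simpa using this

/-- Theorem A with the rank. -/
def MainA' : Prop :=
  ∀ (n : ℕ) (X : Type) [TopologicalSpace X] [T2Space X] [CompactSpace X] [ConnectedSpace X]
    [ChartedSpace (Cm n) X] [IsManifold 𝓘(ℂ, Cm n) ω X]
    (w : Chart n X → Cm n → Matrix (Fin n) (Fin n) ℂ), IsKahler w →
    ∀ Φ : Cm n → X, FiniteOrder w Φ →
    ∀ (E Γ : Type) [TopologicalSpace E] [SimplyConnectedSpace E] [Group Γ] [MulAction Γ E]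
      (p : E → X), IsGalois Γ p →
    ∀ (Q : Type) [Group Q] (q : Γ →* Q), Function.Surjective q → Folner Q →
    VAr Q (2 * n)

/-- Theorem A with the rank, for the fundamental group. -/
def MainPiA' : Prop :=
  ∀ (n : ℕ) (X : Type) [TopologicalSpace X] [T2Space X] [CompactSpace X] [ConnectedSpace X]
    [ChartedSpace (Cm n) X] [IsManifold 𝓘(ℂ, Cm n) ω X]
    (w : Chart n X → Cm n → Matrix (Fin n) (Fin n) ℂ), IsKahler w →
    ∀ Φ : Cm n → X, FiniteOrder w Φ →
    ∀ (x : X) (Q : Type) [Group Q] (q : FundamentalGroup X x →* Q), Function.Surjective q →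
    Folner Q → VAr Q (2 * n)

theorem mainA_of' (h15 : V15Stmt) (hA : AlbStmt2) (hR : RankStmt2) (hF : FibConclQ)
    (hG : GrpAStmt) (hU : UniConcl) (hS : StkStmt) (hL : LiftStmt) : MainA' := by
  intro n X _ _ _ _ _ _ w hw Φ hΦ E Γ _ _ _ _ p hp Q _ q hq hfo
  obtain ⟨_, _, _, hfg, -⟩ := h15 n X w hw E Γ p hp
  obtain ⟨G, K, N, F, c, hAl⟩ := hA n X w hw Φ hΦ E Γ p hp
  have hadd := alb_add hAl
  by_cases hK : Finite (K.map q)
  · exact (finR q hq hfg G K hAl.fi N c hadd hAl.mem hAl.disc hAl.span hK).mono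
      (Nat.mul_le_mul_left 2 (rank_le hR hL hw hΦ hp hAl))
  exfalso
  rw [not_finite_iff_infinite] at hK
  obtain ⟨hKf, hKv⟩ := hF n X w hw Φ hΦ E Γ p hp Q q hq hfo G K N F c hAl hK
  exact end_of h15 hR hS hL hw hΦ hp hAl
    (hG Γ Q q hq hfg G K hAl.fi N c hadd hAl.mem hAl.disc hAl.span hKf hKv
      (hU n X w hw Φ hΦ E Γ p hp G K N F c hAl))

end Vale.Agent.P284.H409.A
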