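import Vale.Agent.P284.H894.A.Final
import Vale.Agent.P284.H409.Rk

/-! # P284, theorem A with the rank (helper409): assembly -/

open scoped Manifold ContDiff Topology Pointwise
open Filter Set Metric

noncomputable section

namespace Vale.Agent.P284.H409.A

open Vale.Agent.P272.K Vale.Agent.P284.H248 Vale.Agent.P284.H894 Vale.Agent.P284.H894.G
  Vale.Agent.P284.H894.V Vale.Agent.P284.H894.W Vale.Agent.P284.H977

theorem mainA' : MainA' :=
  mainA_of' H639.V.v15Stmt albStmt2 H119.R.rankStmt2 fibConclQ grpAStmt H894.A.uniConcl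
    stkStmt H977.liftStmt

theorem mainPiA' : MainPiA' := by
  intro n X iT iT2 iC iCn iCh iM w hw Φ hΦ x Q gQ q hq hQ
  obtain ⟨Y, Γ, tY, hsc, gΓ, aΓ, π, e, hG⟩ := exists_uc (n := n) X x
  exact mainA' n X w hw Φ hΦ Y Γ π hG Q (q.comp e.symm.toMonoidHom)
    (hq.comp e.symm.surjective) hQ

/-- projective manifolds -/
theorem proj' {n : ℕ} {X : Type} [TopologicalSpace X] [T2Space X] [CompactSpace X]
    [ConnectedSpace X] [ChartedSpace (Cm n) X] [IsManifold 𝓘(ℂ, Cm n) ω X]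
    (w : Chart n X → Cm n → Matrix (Fin n) (Fin n) ℂ) (hw : IsKahler w)
    (L : LineBundle n X) (hL : Positive L) (Φ : Cm n → X) (hΦ : FiniteOrder w Φ) :
    (∀ (U : Set X) (x : X) (Q : Set X), IsOpen U → x ∈ U →
      (∀ c : Path x x, ∃ c' : Path x x, c.Homotopic c' ∧ ∀ t, c' t ∈ U) →
      Q.Countable → (∀ y ∈ U, ∃ q ∈ Q, Chain n X y q) →
      VAr (FundamentalGroup X x) (2 * n)) ∧
    (Function.Surjective Φ → ∀ x, VAr (FundamentalGroup X x) (2 * n)) := by
  have h1 : ∀ (U : Set X) (x : X) (Q : Set X), IsOpen U → x ∈ U →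
      (∀ c : Path x x, ∃ c' : Path x x, c.Homotopic c' ∧ ∀ t, c' t ∈ U) →
      Q.Countable → (∀ y ∈ U, ∃ q ∈ Q, Chain n X y q) →
      VAr (FundamentalGroup X x) (2 * n) := fun U x Q hU hx hc hQ hch =>
    mainPiA' n X w hw Φ hΦ x _ (MonoidHom.id _) Function.surjective_id
      (gFinal n X L hL U x Q hU hx hc hQ hch).folner
  refine ⟨h1, fun hs x => ?_⟩
  refine h1 univ x {Φ 0} isOpen_univ (mem_univ _)
    (fun c => ⟨c, Path.Homotopic.refl c, fun t => mem_univ _⟩) (countable_singleton _)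
    fun y _ => ⟨Φ 0, rfl, ?_⟩
  obtain ⟨ζ, rfl⟩ := hs y
  exact Relation.ReflTransGen.single (onCurve_of_range hΦ.holo ζ)

end Vale.Agent.P284.H409.A
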