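import Mathlib

/-!
# P284, row S7a (helper409): two lemmas of group theory: finite-by-abelian groups, and the quadratic
function attached to an invariant homomorphism on a normal subgroup containing the commutators.
-/

open scoped commutatorElement

noncomputable section

namespace Vale.Agent.P284.H409

/-- A finitely generated group with commutators in a subgroup `K` has, for every subgroup `K'` of `K`
of finite index, normal in the group, a subgroup of finite index with commutators in `K'`. -/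
theorem finite_by_abelian {G : Type*} [Group G] [Group.FG G] (K K' : Subgroup G) [K'.Normal]
    (hfin : K'.relIndex K ≠ 0) (hab : ∀ g h : G, ⁅g, h⁆ ∈ K) :
    ∃ G1 : Subgroup G, G1.FiniteIndex ∧ K' ≤ G1 ∧ ∀ g ∈ G1, ∀ h ∈ G1, ⁅g, h⁆ ∈ K' := by
  classical
  let q := QuotientGroup.mk' K'
  have hF : Finite (K.map q) := by
    have h1 : (q.comp K.subtype).ker = K'.subgroupOf K := by
      ext x
      simp [q, Subgroup.mem_subgroupOf, MonoidHom.mem_ker]
    have h2 : (q.comp K.subtype).range = K.map q := by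
      rw [MonoidHom.range_comp, Subgroup.range_subtype]
    have h3 : Finite (K ⧸ (q.comp K.subtype).ker) := by
      rw [h1]
      have : (K'.subgroupOf K).FiniteIndex := ⟨hfin⟩
      exact Subgroup.finite_quotient_of_finiteIndex
    have h4 := (QuotientGroup.quotientKerEquivRange (q.comp K.subtype)).toEquiv
    rw [← h2]
    exact Finite.of_equiv _ h4
  have hC : Finite (commutatorSet (G ⧸ K')) := by
    refine Finite.Set.subset (K.map q : Set (G ⧸ K')) ?_
    rintro _ ⟨a, b, rfl⟩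
    obtain ⟨a, rfl⟩ := QuotientGroup.mk'_surjective K' a
    obtain ⟨b, rfl⟩ := QuotientGroup.mk'_surjective K' b
    exact ⟨⁅a, b⁆, hab a b, map_commutatorElement _ _ _⟩
  have hZ : (Subgroup.center (G ⧸ K')).FiniteIndex := inferInstance
  refine ⟨(Subgroup.center (G ⧸ K')).comap q, ⟨?_⟩, ?_, ?_⟩
  · rw [Subgroup.index_comap_of_surjective _ (QuotientGroup.mk'_surjective K')]
    exact hZ.index_ne_zero
  · intro k hk
    rw [Subgroup.mem_comap]
    have : q k = 1 := (QuotientGroup.eq_one_iff k).2 hk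
    rw [this]; exact one_mem _
  · intro g hg h _
    rw [Subgroup.mem_comap] at hg
    rw [← QuotientGroup.eq_one_iff]
    have h1 : (((⁅g, h⁆ : G)) : G ⧸ K') = ⁅q g, q h⁆ := map_commutatorElement q g h
    rw [h1, commutatorElement_eq_one_iff_mul_comm]
    exact (Subgroup.mem_center_iff.1 hg (q h)).symm

/-! ### the quadratic function -/

/-- the group `G × ℝ` with the product twisted by the cocycle `ω` -/
structure Tw (G : Type*) (ω : G → G → ℝ) where
  g : G
  r : ℝ

namespace Tw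

variable {G : Type*} {ω : G → G → ℝ}

@[ext] theorem ext' {x y : Tw G ω} (h1 : x.g = y.g) (h2 : x.r = y.r) : x = y := by
  cases x; cases y; simp_all

end Tw

section
variable {G : Type*} [Group G] (ω : G → G → ℝ) (h1 : ∀ a b c, ω (a * b) c = ω a c + ω b c)
  (h2 : ∀ a b c, ω a (b * c) = ω a b + ω a c)

include h1 in
theorem om_one_left (c : G) : ω 1 c = 0 := by
  have := h1 1 1 c
  rw [one_mul] at this; linarith

include h2 in
theorem om_one_right (c : G) : ω c 1 = 0 := by
  have := h2 c 1 1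
  rw [one_mul] at this; linarith

include h1 in
theorem om_inv_left (a c : G) : ω a⁻¹ c = - ω a c := by
  have := h1 a a⁻¹ c
  rw [mul_inv_cancel, om_one_left ω h1] at this; linarith

include h2 in
theorem om_inv_right (a c : G) : ω a c⁻¹ = - ω a c := by
  have := h2 a c c⁻¹
  rw [mul_inv_cancel, om_one_right ω h2] at this; linarith

/-- the group structure of the twisted product -/
@[reducible] def twGroup : Group (Tw G ω) where
  mul x y := ⟨x.g * y.g, x.r + y.r + ω x.g y.g⟩
  one := ⟨1, 0⟩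
  inv x := ⟨x.g⁻¹, -x.r + ω x.g x.g⟩
  mul_assoc x y z := by
    refine Tw.ext' (mul_assoc _ _ _) ?_
    change x.r + y.r + ω x.g y.g + z.r + ω (x.g * y.g) z.g =
      x.r + (y.r + z.r + ω y.g z.g) + ω x.g (y.g * z.g)
    rw [h1, h2]; ring
  one_mul x := by
    refine Tw.ext' (one_mul _) ?_
    change 0 + x.r + ω 1 x.g = x.r
    rw [om_one_left ω h1]; ring
  mul_one x := by
    refine Tw.ext' (mul_one _) ?_
    change x.r + 0 + ω x.g 1 = x.r
    rw [om_one_right ω h2]; ring
  inv_mul_cancel x := by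
    refine Tw.ext' (inv_mul_cancel _) ?_
    change -x.r + ω x.g x.g + x.r + ω x.g⁻¹ x.g = 0
    rw [om_inv_left ω h1]; ring

end

/-- **The quadratic function.** Let `K` be a subgroup containing the commutators of `G` and
`φ : K → ℝ` a homomorphism, invariant under conjugation. Then there is a biadditive `ω` on `G`, which is
antisymmetric, with `ω(g, h) = φ([g, h])/2`, and a function `f` extending `φ` with
`f(gh) = f(g) + f(h) + ω(g, h)`. -/
theorem exists_quad {G : Type*} [Group G] (K : Subgroup G) (hK : ∀ g h : G, ⁅g, h⁆ ∈ K)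
    (φ : Additive K →+ ℝ)
    (hφ : ∀ g : G, ∀ x y : K, (y : G) = g * x * g⁻¹ → φ (Additive.ofMul y) = φ (Additive.ofMul x)) :
    ∃ (ω : G → G → ℝ) (f : G → ℝ), (∀ a b c, ω (a * b) c = ω a c + ω b c) ∧
      (∀ a b c, ω a (b * c) = ω a b + ω a c) ∧ (∀ a b, ω a b = - ω b a) ∧
      (∀ a b, f (a * b) = f a + f b + ω a b) ∧ ∀ k : K, f k = φ (Additive.ofMul k) := by
  classical
  have hconj : ∀ g : G, ∀ x ∈ K, g * x * g⁻¹ ∈ K := by
    intro g x hx
    have e : g * x * g⁻¹ = ⁅g, x⁆ * x := by simp [commutatorElement_def]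
    rw [e]; exact mul_mem (hK g x) hx
  set ω : G → G → ℝ := fun a b => φ (Additive.ofMul ⟨⁅a, b⁆, hK a b⟩) / 2 with hω
  have hadd : ∀ x y z : K, (z : G) = x * y →
      φ (Additive.ofMul z) = φ (Additive.ofMul x) + φ (Additive.ofMul y) := by
    intro x y z h
    have : z = x * y := Subtype.ext h
    rw [this, ofMul_mul, map_add]
  have h1 : ∀ a b c, ω (a * b) c = ω a c + ω b c := by
    intro a b c
    have e : ⁅a * b, c⁆ = (a * ⁅b, c⁆ * a⁻¹) * ⁅a, c⁆ := by
      simp only [commutatorElement_def]; group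
    have e1 := hadd ⟨a * ⁅b, c⁆ * a⁻¹, hconj _ _ (hK b c)⟩ ⟨⁅a, c⁆, hK a c⟩ ⟨⁅a * b, c⁆, hK _ _⟩ e
    have e2 := hφ a ⟨⁅b, c⁆, hK b c⟩ ⟨a * ⁅b, c⁆ * a⁻¹, hconj _ _ (hK b c)⟩ rfl
    simp only [hω]
    rw [e1, e2]; ring
  have h2 : ∀ a b c, ω a (b * c) = ω a b + ω a c := by
    intro a b c
    have e : ⁅a, b * c⁆ = ⁅a, b⁆ * (b * ⁅a, c⁆ * b⁻¹) := by
      simp only [commutatorElement_def]; group
    have e1 := hadd ⟨⁅a, b⁆, hK a b⟩ ⟨b * ⁅a, c⁆ * b⁻¹, hconj _ _ (hK a c)⟩ ⟨⁅a, b * c⁆, hK _ _⟩ e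
    have e2 := hφ b ⟨⁅a, c⁆, hK a c⟩ ⟨b * ⁅a, c⁆ * b⁻¹, hconj _ _ (hK a c)⟩ rfl
    simp only [hω]
    rw [e1, e2]; ring
  have h3 : ∀ a b, ω a b = - ω b a := by
    intro a b
    have e := hadd ⟨⁅a, b⁆, hK a b⟩ ⟨⁅b, a⁆, hK b a⟩ 1 (by
      simp only [commutatorElement_def, Subgroup.coe_one]; group)
    rw [ofMul_one, map_zero] at e
    simp only [hω]; linarith
  have hKz : ∀ (k : K) (a : G), ω k a = 0 := by
    intro k a
    have e : ⁅(k : G), a⁆ = (k : G) * (a * (k⁻¹ : K) * a⁻¹) := by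
      simp only [commutatorElement_def, Subgroup.coe_inv]; group
    have e1 := hadd k ⟨a * (k⁻¹ : K) * a⁻¹, hconj _ _ (k⁻¹).2⟩ ⟨⁅(k : G), a⁆, hK _ _⟩ e
    have e2 := hφ a k⁻¹ ⟨a * (k⁻¹ : K) * a⁻¹, hconj _ _ (k⁻¹).2⟩ rfl
    simp only [hω]
    rw [e1, e2, ofMul_inv, map_neg]; ring
  have hKz' : ∀ (k : K) (a : G), ω a k = 0 := by
    intro k a; rw [h3, hKz, neg_zero]
  let _ : Group (Tw G ω) := twGroup ω h1 h2
  have mul_def : ∀ x y : Tw G ω, x * y = ⟨x.g * y.g, x.r + y.r + ω x.g y.g⟩ := fun _ _ => rfl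
  have inv_def : ∀ x : Tw G ω, x⁻¹ = ⟨x.g⁻¹, -x.r + ω x.g x.g⟩ := fun _ => rfl
  have one_def : (1 : Tw G ω) = ⟨1, 0⟩ := rfl
  have haa : ∀ a, ω a a = 0 := fun a => by have := h3 a a; linarith
  let R : Subgroup (Tw G ω) :=
    { carrier := {x | ∃ k : K, x = ⟨k, φ (Additive.ofMul k)⟩}
      mul_mem' := by
        rintro _ _ ⟨k, rfl⟩ ⟨l, rfl⟩
        refine ⟨k * l, ?_⟩
        rw [mul_def]
        refine Tw.ext' (by simp) ?_
        change φ (Additive.ofMul k) + φ (Additive.ofMul l) + ω k l = φ (Additive.ofMul (k * l))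
        rw [hKz, ofMul_mul, map_add, add_zero]
      one_mem' := ⟨1, by rw [one_def]; exact Tw.ext' (by simp) (by simp)⟩
      inv_mem' := by
        rintro _ ⟨k, rfl⟩
        refine ⟨k⁻¹, ?_⟩
        rw [inv_def]
        refine Tw.ext' (by simp) ?_
        change -φ (Additive.ofMul k) + ω k k = φ (Additive.ofMul k⁻¹)
        rw [hKz, ofMul_inv, map_neg, add_zero] }
  have hRc : ∀ x y : Tw G ω, ⁅x, y⁆ ∈ R := by
    intro x y
    refine ⟨⟨⁅x.g, y.g⁆, hK _ _⟩, ?_⟩
    rw [commutatorElement_def, inv_def, inv_def, mul_def, mul_def, mul_def]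
    refine Tw.ext' (by simp [commutatorElement_def]) ?_
    simp only [h1, om_inv_left ω h1, om_inv_right ω h2, haa]
    have e : φ (Additive.ofMul ⟨⁅x.g, y.g⁆, hK x.g y.g⟩) = 2 * ω x.g y.g := by
      simp only [hω]; ring
    rw [e, h3 y.g x.g]; ring
  have hRn : R.Normal := by
    constructor
    intro x hx y
    have e : y * x * y⁻¹ = ⁅y, x⁆ * x := by simp [commutatorElement_def]
    rw [e]; exact mul_mem (hRc y x) hx
  let _ : CommGroup (Tw G ω ⧸ R) :=
    { (inferInstance : Group (Tw G ω ⧸ R)) with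
      mul_comm := by
        intro a b
        obtain ⟨a, rfl⟩ := QuotientGroup.mk'_surjective R a
        obtain ⟨b, rfl⟩ := QuotientGroup.mk'_surjective R b
        rw [← map_mul, ← map_mul]
        rw [QuotientGroup.mk'_apply, QuotientGroup.mk'_apply, QuotientGroup.eq]
        have e : (a * b)⁻¹ * (b * a) = ⁅b⁻¹, a⁻¹⁆ := by
          simp only [commutatorElement_def]; group
        rw [e]; exact hRc _ _ }
  let ι : ℝ →+ Additive (Tw G ω ⧸ R) :=
    { toFun := fun r => Additive.ofMul (QuotientGroup.mk' R ⟨1, r⟩)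
      map_zero' := by
        change Additive.ofMul (QuotientGroup.mk' R 1) = 0
        rw [map_one]; rfl
      map_add' := by
        intro r s
        rw [← ofMul_mul, ← map_mul, mul_def]
        simp only [one_mul, om_one_left ω h1, add_zero] }
  have hι : Function.Injective ι := by
    rw [injective_iff_map_eq_zero]
    intro r hr
    have h3 : (QuotientGroup.mk' R ⟨1, r⟩ : Tw G ω ⧸ R) = 1 := hr
    obtain ⟨k, hk⟩ := (QuotientGroup.eq_one_iff _).1 h3
    have h4 : (1 : G) = k := congrArg Tw.g hk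
    have h5 : r = φ (Additive.ofMul k) := congrArg Tw.r hk
    have h6 : k = 1 := Subtype.ext h4.symm
    rw [h5, h6, ofMul_one, map_zero]
  obtain ⟨ρ, hρ⟩ := (Module.Baer.of_divisible ℝ).extension_property_addMonoidHom ι hι
    (AddMonoidHom.id ℝ)
  have hρ' : ∀ r, ρ (Additive.ofMul (QuotientGroup.mk' R ⟨1, r⟩)) = r :=
    fun r => DFunLike.congr_fun hρ r
  refine ⟨ω, fun g => - ρ (Additive.ofMul (QuotientGroup.mk' R ⟨g, 0⟩)), h1, h2, h3, ?_, ?_⟩
  · intro a b
    have e : (⟨a, 0⟩ : Tw G ω) * ⟨b, 0⟩ = ⟨a * b, 0⟩ * ⟨1, ω a b⟩ := by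
      rw [mul_def, mul_def]
      exact Tw.ext' (by simp) (by simp [om_one_right ω h2])
    have e1 := congrArg (fun x => ρ (Additive.ofMul (QuotientGroup.mk' R x))) e
    simp only [map_mul, ofMul_mul, map_add] at e1
    rw [hρ'] at e1
    linarith
  · intro k
    have e : (⟨k, 0⟩ : Tw G ω) * ⟨1, φ (Additive.ofMul k)⟩ = ⟨k, φ (Additive.ofMul k)⟩ := by
      rw [mul_def]
      exact Tw.ext' (by simp) (by simp [om_one_right ω h2])
    have e1 := congrArg (fun x => ρ (Additive.ofMul (QuotientGroup.mk' R x))) e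
    simp only [map_mul, ofMul_mul, map_add] at e1
    rw [hρ'] at e1
    have e2 : (QuotientGroup.mk' R ⟨k, φ (Additive.ofMul k)⟩ : Tw G ω ⧸ R) = 1 :=
      (QuotientGroup.eq_one_iff _).2 ⟨k, rfl⟩
    rw [e2, ofMul_one, map_zero] at e1
    linarith

end Vale.Agent.P284.H409
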