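import Vale.Agent.P284.H409.S6
import Vale.Agent.P284.H409.Ext

/-!
# P284, row WGRP (helper409): S6 and S7a combined, for one group `G` and its subgroup `K`.
-/

open scoped commutatorElement Pointwise

noncomputable section

namespace Vale.Agent.P284.H409

theorem SubExp.subgroup {G : Type*} [Group G] (hG : SubExp G) (H : Subgroup G) : SubExp H := by
  intro S hS ε hε
  obtain ⟨C, hC⟩ := hG (H.subtype '' S) (hS.image _) ε hε
  refine ⟨C, fun k => ?_⟩
  have h1 : (H.subtype '' S) ^ k = H.subtype '' (S ^ k) := by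
    rw [Set.image_pow]
  have h2 := hC k
  rw [h1, Set.ncard_image_of_injective _ H.subtype_injective] at h2
  exact h2

theorem finite_hom {K : Type*} [Group K] [Group.FG K] (P : Type*) [Group P] [Finite P] :
    Finite (K →* P) := by
  obtain ⟨S, hS⟩ := Group.FG.out (G := K)
  refine Finite.of_injective (fun (ρ : K →* P) (s : S) => ρ s) ?_
  intro ρ σ h
  refine MonoidHom.eq_of_eqOn_dense hS ?_
  intro s hs
  exact congrFun h ⟨s, hs⟩

/-- a subgroup of finite index, invariant under all automorphisms -/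
theorem exists_char {K : Type*} [Group K] [Group.FG K] (H : Subgroup K) [H.FiniteIndex] :
    ∃ L : Subgroup K, L ≤ H ∧ L.FiniteIndex ∧ ∀ α : K ≃* K, ∀ x ∈ L, α x ∈ L := by
  have hfin : Finite (K ⧸ H) := Subgroup.finite_quotient_of_finiteIndex
  have : Finite (K →* Equiv.Perm (K ⧸ H)) := finite_hom _
  refine ⟨⨅ ρ : K →* Equiv.Perm (K ⧸ H), ρ.ker, ?_, ?_, ?_⟩
  · refine le_trans (iInf_le _ (MulAction.toPermHom K (K ⧸ H))) ?_
    rw [← Subgroup.normalCore_eq_ker]
    exact Subgroup.normalCore_le H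
  · exact Subgroup.finiteIndex_iInf fun ρ => inferInstance
  · intro α x hx
    rw [Subgroup.mem_iInf] at hx ⊢
    intro ρ
    have := hx (ρ.comp α.toMonoidHom)
    rw [MonoidHom.mem_ker] at this ⊢
    exact this

theorem grp_core {G : Type*} [Group G] (hG : SubExp G) [Group.FG G] (K : Subgroup G)
    (hKc : ∀ g h : G, ⁅g, h⁆ ∈ K) [Group.FG K] (H : Subgroup K) [H.FiniteIndex]
    (φ : Additive H →+ ℝ) (hφ : φ ≠ 0) :
    ∃ G2 : Subgroup G, G2.FiniteIndex ∧ ∃ (ω : G2 → G2 → ℝ) (f : G2 → ℝ),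
      (∀ a b c, ω (a * b) c = ω a c + ω b c) ∧ (∀ a b c, ω a (b * c) = ω a b + ω a c) ∧
      (∀ a b, ω a b = - ω b a) ∧ (∀ a b, f (a * b) = f a + f b + ω a b) ∧
      (∀ a b : G2, (a : G) ∈ K → ω a b = 0) ∧ ∃ k : G2, (k : G) ∈ K ∧ f k ≠ 0 := by
  classical
  have hKn : K.Normal := by
    constructor
    intro k hk g
    have e : g * k * g⁻¹ = ⁅g, k⁆ * k := by simp [commutatorElement_def]
    rw [e]; exact mul_mem (hKc g k) hk
  obtain ⟨L, hLH, hLf, hLa⟩ := exists_char H
  set K2 : Subgroup G := L.map K.subtype with hK2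
  have hK2K : K2 ≤ K := Subgroup.map_subtype_le _
  have hK2n : K2.Normal := by
    constructor
    rintro _ ⟨x, hx, rfl⟩ g
    refine ⟨MulAut.conjNormal g x, hLa _ x hx, ?_⟩
    simp
  have hK2i : K2.subgroupOf K = L := by
    rw [hK2, Subgroup.subgroupOf, Subgroup.comap_map_eq_self_of_injective K.subtype_injective]
  have hK2r : K2.relIndex K ≠ 0 := by
    rw [Subgroup.relIndex, hK2i]; exact hLf.index_ne_zero
  let eL : L ≃* K2 := L.equivMapOfInjective K.subtype K.subtype_injective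
  have hK2fg : Group.FG K2 := Group.fg_of_surjective (f := eL.toMonoidHom) eL.surjective
  obtain ⟨G1, hG1f, hK2G1, hG1c⟩ := finite_by_abelian K K2 hK2r hKc
  -- a nonzero homomorphism on `K2`
  have hψ : ∃ ψ : Additive K2 →+ ℝ, ψ ≠ 0 := by
    let j : K2 →* H := (Subgroup.inclusion hLH).comp eL.symm.toMonoidHom
    refine ⟨φ.comp (MonoidHom.toAdditive j), fun h0 => hφ ?_⟩
    ext x
    obtain ⟨m, hm, -, hxm⟩ := Subgroup.exists_pow_mem_of_index_ne_zero hLf.index_ne_zero
      ((Additive.toMul x : H) : K)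
    have h1 := DFunLike.congr_fun h0 (Additive.ofMul (eL ⟨_, hxm⟩))
    have h2 : j (eL ⟨_, hxm⟩) = (Additive.toMul x : H) ^ m := by
      refine Subtype.ext ?_
      simp [j]
    have h3 : φ (Additive.ofMul ((Additive.toMul x : H) ^ m)) = 0 := by
      rw [← h2]; exact h1
    rw [ofMul_pow, map_nsmul] at h3
    have h4 : (m : ℝ) ≠ 0 := by exact_mod_cast hm.ne'
    rw [nsmul_eq_mul] at h3
    exact (mul_eq_zero.1 h3).resolve_left h4
  obtain ⟨G2, hG21, hG2f, hK2G2, ψ, hψ0, hψi⟩ := s6 K2 hG hψ G1 hK2G1 hG1c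
  -- the quadratic function on `G2`
  let i2 : K2.subgroupOf G2 →* K2 := (Subgroup.subgroupOfEquivOfLe hK2G2).toMonoidHom
  have hi2 : ∀ x, ((i2 x : K2) : G) = ((x : G2) : G) := fun x => rfl
  obtain ⟨ω, f, h1, h2, h3, h4, h5⟩ := exists_quad (G := G2) (K2.subgroupOf G2)
    (fun g h => by
      rw [Subgroup.mem_subgroupOf]
      have := hG1c g (hG21 g.2) h (hG21 h.2)
      simpa [commutatorElement_def] using this)
    (ψ.comp (MonoidHom.toAdditive i2)) (by
      intro g x y hxy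
      have h6 := hψi g g.2 (i2 x)
      have h7 : i2 y = ⟨(g : G) * (i2 x : K2) * (g : G)⁻¹, hK2n.conj_mem _ (i2 x).2 _⟩ := by
        refine Subtype.ext ?_
        rw [hi2]
        exact congrArg Subtype.val hxy
      change ψ (Additive.ofMul (i2 y)) = ψ (Additive.ofMul (i2 x))
      rw [h7]; exact h6)
  refine ⟨G2, hG2f, ω, f, h1, h2, h3, h4, ?_, ?_⟩
  · -- `ω` vanishes on `K`
    have hz : ∀ a b : G2, (a : G) ∈ K2 → ω a b = 0 := by
      intro a b ha
      -- `f (a b a⁻¹ b⁻¹)` computed in two ways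
      have hf1 : f 1 = 0 := by
        have := h4 1 1
        rw [one_mul, om_one_left ω h1] at this; linarith
      have hfi : ∀ g, f g⁻¹ = - f g + ω g g := by
        intro g
        have := h4 g g⁻¹
        rw [mul_inv_cancel, hf1, om_inv_right ω h2] at this; linarith
      have hgg : ∀ g, ω g g = 0 := fun g => by have := h3 g g; linarith
      have hcm : f (b * a * b⁻¹) = f a + 2 * ω b a := by
        rw [h4, h4, hfi, hgg, h1, om_inv_right ω h2, om_inv_right ω h2, hgg, h3 a b]; ring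
      have ha' : a ∈ K2.subgroupOf G2 := ha
      have hb' : b * a * b⁻¹ ∈ K2.subgroupOf G2 := by
        rw [Subgroup.mem_subgroupOf]
        exact hK2n.conj_mem _ ha b
      have e1 : f a = ψ (Additive.ofMul (i2 ⟨a, ha'⟩)) := h5 ⟨a, ha'⟩
      have e2 : f (b * a * b⁻¹) = ψ (Additive.ofMul (i2 ⟨_, hb'⟩)) := h5 ⟨_, hb'⟩
      have e3 := hψi b b.2 (i2 ⟨a, ha'⟩)
      have e4 : i2 ⟨_, hb'⟩ = ⟨(b : G) * (i2 ⟨a, ha'⟩ : K2) * (b : G)⁻¹,
          hK2n.conj_mem _ (i2 ⟨a, ha'⟩).2 _⟩ := Subtype.ext rfl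
      rw [e4, e3, ← e1] at e2
      have e5 : ω b a = 0 := by linarith
      rw [h3, e5, neg_zero]
    intro a b ha
    obtain ⟨m, hm, -, hxm⟩ := Subgroup.exists_pow_mem_of_index_ne_zero hLf.index_ne_zero
      (⟨(a : G), ha⟩ : K)
    have hp : ∀ k : ℕ, ω (a ^ k) b = k * ω a b := by
      intro k
      induction k with
      | zero => simp [om_one_left ω h1]
      | succ k ih => rw [pow_succ, h1, ih]; push_cast; ring
    have h6 : ω (a ^ m) b = 0 := hz _ _ ⟨_, hxm, by simp⟩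
    rw [hp] at h6
    exact (mul_eq_zero.1 h6).resolve_left (by exact_mod_cast hm.ne')
  · obtain ⟨x, hx⟩ : ∃ x, ψ x ≠ 0 := by
      by_contra hc
      push Not at hc
      exact hψ0 (AddMonoidHom.ext hc)
    refine ⟨⟨(Additive.toMul x : K2), hK2G2 (Additive.toMul x).2⟩, hK2K (Additive.toMul x).2, ?_⟩
    rw [h5 ⟨⟨(Additive.toMul x : K2), hK2G2 (Additive.toMul x).2⟩, (Additive.toMul x).2⟩]
    exact hx

end Vale.Agent.P284.H409
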