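import Vale.Agent.P284.H894.W.Spec
import Vale.Agent.P284.H409.Core
import Mathlib.Algebra.Module.ZLattice.Basic

/-!
# P284, row WGRP (helper409): `GrpStmt`.
-/

open scoped commutatorElement Pointwise Topology

noncomputable section

namespace Vale.Agent.P284.H409

open Vale.Agent.P272.K Vale.Agent.P284.H894.V Vale.Agent.P284.H894.G

/-- an additive map which factors through the lattice of the `c g` extends to an `ℝ`-linear map -/
theorem exists_lin {N : ℕ} {G : Type*} [Group G] (c : G → Cm N) (hc : ∀ g h, c (g * h) = c g + c h)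
    (hd : ∀ R : ℝ, {v | (∃ g, c g = v) ∧ ‖v‖ ≤ R}.Finite)
    (hs : Submodule.span ℝ (Set.range c) = ⊤) {W : Type*} [AddCommGroup W] [Module ℝ W]
    (l : G → W) (hl : ∀ g h, l (g * h) = l g + l h) (hk : ∀ g, c g = 0 → l g = 0) :
    ∃ Λ : Cm N →ₗ[ℝ] W, ∀ g, l g = Λ (c g) := by
  classical
  have hc1 : c 1 = 0 := by
    have := hc 1 1
    rw [one_mul] at this
    exact (left_eq_add.1 this)
  have hci : ∀ g, c g⁻¹ = - c g := by
    intro g
    have := hc g g⁻¹
    rw [mul_inv_cancel, hc1] at this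
    exact (neg_eq_of_add_eq_zero_right this.symm).symm
  have hl1 : l 1 = 0 := hk 1 hc1
  have hli : ∀ g, l g⁻¹ = - l g := by
    intro g
    have := hl g g⁻¹
    rw [mul_inv_cancel, hl1] at this
    exact (neg_eq_of_add_eq_zero_right this.symm).symm
  have hdet : ∀ g h, c g = c h → l g = l h := by
    intro g h e
    have h1 : c (g * h⁻¹) = 0 := by rw [hc, hci, e, add_neg_cancel]
    have h2 := hk _ h1
    rw [hl, hli] at h2
    exact add_neg_eq_zero.1 h2
  let L : Submodule ℤ (Cm N) := AddSubgroup.toIntSubmodule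
    { carrier := Set.range c
      add_mem' := by rintro _ _ ⟨g, rfl⟩ ⟨h, rfl⟩; exact ⟨g * h, hc g h⟩
      zero_mem' := ⟨1, hc1⟩
      neg_mem' := by rintro _ ⟨g, rfl⟩; exact ⟨g⁻¹, hci g⟩ }
  have hmem : ∀ x : L, ∃ g, c g = (x : Cm N) := fun x => x.2
  have hLc : (L : Set (Cm N)) = Set.range c := rfl
  have : DiscreteTopology L := by
    refine discreteTopology_of_isOpen_singleton_zero ?_
    refine isOpen_singleton_of_finite_mem_nhds 0 (s := Metric.closedBall 0 1) ?_ ?_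
    · exact Metric.closedBall_mem_nhds _ one_pos
    · refine Set.Finite.of_injOn (t := {v : Cm N | (∃ g, c g = v) ∧ ‖v‖ ≤ 1}) (f := Subtype.val)
        ?_ Subtype.val_injective.injOn (hd 1)
      intro x hx
      refine ⟨hmem x, ?_⟩
      have := mem_closedBall_zero_iff.1 hx
      exact this
  have : IsZLattice ℝ L := ⟨by rw [hLc]; exact hs⟩
  choose s hsec using hmem
  let lb : L →+ W :=
    { toFun := fun x => l (s x)
      map_zero' := by
        refine hk _ ?_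
        rw [hsec]; rfl
      map_add' := by
        intro x y
        rw [← hl]
        refine hdet _ _ ?_
        rw [hsec, hc, hsec, hsec]; rfl }
  let b := Module.Free.chooseBasis ℤ L
  let bR := b.ofZLatticeBasis ℝ L
  let Λ : Cm N →ₗ[ℝ] W := bR.constr ℝ fun i => lb (b i)
  have key : (Λ.restrictScalars ℤ) ∘ₗ L.subtype = lb.toIntLinearMap := by
    refine b.ext fun i => ?_
    simp only [LinearMap.coe_comp, Function.comp_apply, LinearMap.coe_restrictScalars,
      Submodule.coe_subtype, AddMonoidHom.coe_toIntLinearMap]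
    rw [← b.ofZLatticeBasis_apply ℝ L i]
    exact bR.constr_basis ℝ _ i
  refine ⟨Λ, fun g => ?_⟩
  have h1 := LinearMap.congr_fun key ⟨c g, g, rfl⟩
  have h2 : l g = lb ⟨c g, g, rfl⟩ := hdet _ _ (hsec ⟨c g, g, rfl⟩).symm
  rw [h2]
  exact h1.symm

theorem exists_bilin {N : ℕ} {G : Type*} [Group G] (c : G → Cm N)
    (hc : ∀ g h, c (g * h) = c g + c h)
    (hd : ∀ R : ℝ, {v | (∃ g, c g = v) ∧ ‖v‖ ≤ R}.Finite)
    (hs : Submodule.span ℝ (Set.range c) = ⊤) (ω : G → G → ℝ)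
    (h1 : ∀ a b c, ω (a * b) c = ω a c + ω b c) (h2 : ∀ a b c, ω a (b * c) = ω a b + ω a c)
    (hk : ∀ a b, c a = 0 → ω a b = 0) (hk' : ∀ a b, c b = 0 → ω a b = 0) :
    ∃ B : Cm N →ₗ[ℝ] Cm N →ₗ[ℝ] ℝ, ∀ a b, ω a b = B (c a) (c b) := by
  have h3 : ∀ a, ∃ Λ : Cm N →ₗ[ℝ] ℝ, ∀ b, ω a b = Λ (c b) := fun a =>
    exists_lin c hc hd hs (ω a) (h2 a) (hk' a)
  choose Λ hΛ using h3
  have hext : ∀ u v : Cm N →ₗ[ℝ] ℝ, (∀ b, u (c b) = v (c b)) → u = v := by
    intro u v huv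
    refine LinearMap.ext_on hs ?_
    rintro _ ⟨b, rfl⟩
    exact huv b
  obtain ⟨B, hB⟩ := exists_lin c hc hd hs Λ (fun a b => hext _ _ fun x => by
    rw [LinearMap.add_apply, ← hΛ, ← hΛ, ← hΛ, h1]) (fun a ha => hext _ _ fun x => by
    rw [← hΛ, hk a x ha]; rfl)
  exact ⟨B, fun a b => by rw [hΛ, hB]⟩

/-- **WGRP.** -/
theorem grpStmt : Vale.Agent.P284.H894.W.GrpStmt := by
  intro Γ _ hgr hfg G K hGi N c hc hK hd hs hKfg hKv
  classical
  have hKG : K ≤ G := fun g hg => ((hK g).1 hg).1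
  have hc1 : c 1 = 0 := by
    have := hc 1 G.one_mem 1 G.one_mem
    rw [one_mul] at this
    exact (left_eq_add.1 this)
  have hci : ∀ g ∈ G, c g⁻¹ = - c g := by
    intro g hg
    have := hc g hg g⁻¹ (G.inv_mem hg)
    rw [mul_inv_cancel, hc1] at this
    exact (neg_eq_of_add_eq_zero_right this.symm).symm
  have hGfg : Group.FG G := Subgroup.fg_of_index_ne_zero G
  have hΓ : SubExp Γ := hgr
  have hG : SubExp G := hΓ.subgroup G
  let KG : Subgroup G := K.subgroupOf G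
  let e : KG ≃* K := Subgroup.subgroupOfEquivOfLe hKG
  have hKG' : Group.FG KG := Group.fg_of_surjective (f := e.symm.toMonoidHom) e.symm.surjective
  obtain ⟨H, hHf, φ, hφ⟩ := hKv
  -- the homomorphism on the corresponding subgroup of `KG`
  let H' : Subgroup KG := H.comap e.toMonoidHom
  have hH' : H'.FiniteIndex := by
    refine ⟨?_⟩
    rw [Subgroup.index_comap_of_surjective _ e.surjective]
    exact hHf.index_ne_zero
  let j : H' →* H := (e.toMonoidHom.comp H'.subtype).codRestrict H fun x => x.2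
  let φ' : Additive H' →+ ℝ := (Int.castAddHom ℝ).comp
    ((MonoidHom.toAdditiveLeft φ).comp (MonoidHom.toAdditive j))
  have hφ'v : ∀ x : H', φ' (Additive.ofMul x) = ((Multiplicative.toAdd (φ (j x)) : ℤ) : ℝ) :=
    fun x => rfl
  have hφ'0 : φ' ≠ 0 := by
    obtain ⟨x, hx⟩ := hφ (Multiplicative.ofAdd 1)
    intro h0
    have hx' : (e.symm (x : K)) ∈ H' := by
      change e (e.symm (x : K)) ∈ H
      rw [MulEquiv.apply_symm_apply]; exact x.2
    have h1 := hφ'v ⟨_, hx'⟩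
    have h2 : j ⟨_, hx'⟩ = x := by
      refine Subtype.ext ?_
      change e (e.symm (x : K)) = x
      rw [MulEquiv.apply_symm_apply]
    rw [h2, hx, h0] at h1
    simp at h1
  have hcomm : ∀ g h : G, ⁅g, h⁆ ∈ KG := by
    intro g h
    rw [Subgroup.mem_subgroupOf, hK]
    refine ⟨(⁅g, h⁆ : G).2, ?_⟩
    rw [commutatorElement_def]
    have m1 := G.mul_mem g.2 h.2
    have m2 := G.mul_mem m1 (G.inv_mem g.2)
    push_cast
    rw [hc _ m2 _ (G.inv_mem h.2), hc _ m1 _ (G.inv_mem g.2), hc _ g.2 _ h.2, hci _ g.2, hci _ h.2]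
    abel
  obtain ⟨G2, hG2f, ω, f, h1, h2, h3, h4, h5, k, hkK, hfk⟩ := grp_core hG KG hcomm H' φ' hφ'0
  -- the lattice of `G2`
  have hc' : ∀ g h : G2, c ((g : G) * (h : G) : G) = c (g : G) + c (h : G) := by
    intro g h
    exact hc _ (g : G).2 _ (h : G).2
  have hpow : ∀ g ∈ G, ∀ m : ℕ, c (g ^ m) = (m : ℝ) • c g := by
    intro g hg m
    induction m with
    | zero => simp [hc1]
    | succ m ih =>
      rw [pow_succ, hc _ (G.pow_mem hg m) _ hg, ih]
      push_cast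
      rw [add_smul, one_smul]
  have hs2 : Submodule.span ℝ (Set.range fun g : G2 => c ((g : G) : Γ)) = ⊤ := by
    rw [eq_top_iff, ← hs, Submodule.span_le]
    rintro _ ⟨g, hg, rfl⟩
    obtain ⟨m, hm, -, hgm⟩ := Subgroup.exists_pow_mem_of_index_ne_zero hG2f.index_ne_zero
      (⟨g, hg⟩ : G)
    have h6 : (m : ℝ) • c g ∈ Submodule.span ℝ (Set.range fun g : G2 => c ((g : G) : Γ)) := by
      refine Submodule.subset_span ⟨⟨_, hgm⟩, ?_⟩
      exact hpow g hg m
    have h7 : (m : ℝ) ≠ 0 := by exact_mod_cast hm.ne'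
    have h8 := Submodule.smul_mem _ ((m : ℝ)⁻¹) h6
    rwa [smul_smul, inv_mul_cancel₀ h7, one_smul] at h8
  have hd2 : ∀ R : ℝ, {v | (∃ g : G2, c ((g : G) : Γ) = v) ∧ ‖v‖ ≤ R}.Finite := by
    intro R
    refine (hd R).subset ?_
    rintro v ⟨⟨g, hg⟩, hv⟩
    exact ⟨⟨_, (g : G).2, hg⟩, hv⟩
  have hz : ∀ a b : G2, c ((a : G) : Γ) = 0 → ω a b = 0 := by
    intro a b ha
    refine h5 a b ?_
    rw [Subgroup.mem_subgroupOf, hK]
    exact ⟨(a : G).2, ha⟩
  obtain ⟨B, hB⟩ := exists_bilin (fun g : G2 => c ((g : G) : Γ)) (fun g h => hc' g h) hd2 hs2 ω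
    h1 h2 hz (fun a b hb => by rw [h3, hz b a hb, neg_zero])
  have hmem : ∀ g ∈ G2.map G.subtype, ∃ x : G2, ((x : G) : Γ) = g := by
    rintro _ ⟨x, hx, rfl⟩
    exact ⟨⟨x, hx⟩, rfl⟩
  let F : Γ → ℝ := fun g => if h : ∃ x : G2, ((x : G) : Γ) = g then f h.choose else 0
  have hF : ∀ x : G2, F ((x : G) : Γ) = f x := by
    intro x
    have h : ∃ y : G2, ((y : G) : Γ) = ((x : G) : Γ) := ⟨x, rfl⟩
    have h6 : h.choose = x := Subtype.ext (Subtype.ext h.choose_spec)
    simp only [F]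
    rw [dif_pos h, h6]
  refine ⟨G2.map G.subtype, ?_, Subgroup.map_subtype_le _, F, B, ?_, ?_⟩
  · rw [Subgroup.finiteIndex_iff, Subgroup.index_map_subtype]
    exact mul_ne_zero hG2f.index_ne_zero hGi.index_ne_zero
  · intro g' hg' g hg
    obtain ⟨x, rfl⟩ := hmem _ hg'
    obtain ⟨y, rfl⟩ := hmem _ hg
    have h6 : ((x : G) : Γ) * ((y : G) : Γ) = (((x * y : G2) : G) : Γ) := rfl
    rw [h6, hF, hF, hF, h4, hB]
  · refine ⟨((k : G) : Γ), ⟨k, k.2, rfl⟩, ?_, ?_⟩
    · rw [Subgroup.mem_subgroupOf, hK] at hkK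
      exact hkK.2
    · rw [hF]; exact hfk

end Vale.Agent.P284.H409
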