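import Vale.Agent.P284.H894.W.Spec2
import Vale.Agent.P284.H913.V3

/-!
# P284, theorem A (helper409): every amenable quotient of the fundamental group of a compact Kähler
manifold, dominated by `ℂⁿ` with finite order, is virtually abelian. Statements of the rows. FROZEN.

Design: board #16132. `q : Γ →* Q` onto, `Q` amenable; everything lives on the universal covering `E`,
only `K = ker c` is replaced by its image `K.map q`.
-/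

open scoped Manifold ContDiff Topology Pointwise ComplexConjugate ComplexOrder ENNReal
open Filter Set Metric MeasureTheory

noncomputable section

namespace Vale.Agent.P284.H409.A

open Vale.Agent.P272.K Vale.Agent.P284.H248 Vale.Agent.P284.H894 Vale.Agent.P284.H894.G
  Vale.Agent.P284.H894.V Vale.Agent.P284.H894.W Vale.Agent.P284.H913.V

/-! ### Groups -/

/-- The geometric input on unitarity for the subgroup `G` with period map `c`: a twisted cocycle with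
non-unitary character vanishes on the kernel of `c`. -/
def Uni {Γ : Type} [Group Γ] (G : Subgroup Γ) {N : ℕ} (c : Γ → Cm N) : Prop :=
  ∀ G₁ : Subgroup Γ, G₁.FiniteIndex → G₁ ≤ G → ∀ χ f : Γ → ℂ,
    (∀ g ∈ G₁, χ g ≠ 0) → (∀ g ∈ G₁, ∀ h ∈ G₁, χ (g * h) = χ g * χ h) →
    (∀ g ∈ G₁, ∀ h ∈ G₁, f (g * h) = f g + χ g * f h) → (∃ g ∈ G₁, ‖χ g‖ ≠ 1) →
    ∀ k ∈ G₁, c k = 0 → χ k = 1 → f k = 0

/-- **AG** (409): groups. -/
def GrpAStmt : Prop :=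
  ∀ (Γ Q : Type) [Group Γ] [Group Q] (q : Γ →* Q), Function.Surjective q → Group.FG Γ →
    ∀ (G K : Subgroup Γ), G.FiniteIndex →
    ∀ (N : ℕ) (c : Γ → Cm N), (∀ g ∈ G, ∀ h ∈ G, c (g * h) = c g + c h) →
    (∀ g, g ∈ K ↔ g ∈ G ∧ c g = 0) → (∀ R : ℝ, {v | (∃ g ∈ G, c g = v) ∧ ‖v‖ ≤ R}.Finite) →
    Submodule.span ℝ (c '' (G : Set Γ)) = ⊤ → Group.FG (K.map q) → VirtIndicable (K.map q) →
    Uni G c →
    ∃ G₂ : Subgroup Γ, G₂.FiniteIndex ∧ G₂ ≤ G ∧ ∃ (f : Γ → ℝ) (B : Cm N →ₗ[ℝ] Cm N →ₗ[ℝ] ℝ),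
      (∀ g' ∈ G₂, ∀ g ∈ G₂, f (g' * g) = f g' + f g + B (c g') (c g)) ∧
      ∃ k ∈ G₂, c k = 0 ∧ f k ≠ 0

/-- **AG'** (409): the same for a quotient `Q` of subexponential growth, without `Uni`. -/
def GrpQStmt : Prop :=
  ∀ (Γ Q : Type) [Group Γ] [Group Q] (q : Γ →* Q), Function.Surjective q → Group.FG Γ →
    SubexpGrowth Q → ∀ (G K : Subgroup Γ), G.FiniteIndex →
    ∀ (N : ℕ) (c : Γ → Cm N), (∀ g ∈ G, ∀ h ∈ G, c (g * h) = c g + c h) →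
    (∀ g, g ∈ K ↔ g ∈ G ∧ c g = 0) → (∀ R : ℝ, {v | (∃ g ∈ G, c g = v) ∧ ‖v‖ ≤ R}.Finite) →
    Submodule.span ℝ (c '' (G : Set Γ)) = ⊤ → Group.FG (K.map q) → VirtIndicable (K.map q) →
    ∃ G₂ : Subgroup Γ, G₂.FiniteIndex ∧ G₂ ≤ G ∧ ∃ (f : Γ → ℝ) (B : Cm N →ₗ[ℝ] Cm N →ₗ[ℝ] ℝ),
      (∀ g' ∈ G₂, ∀ g ∈ G₂, f (g' * g) = f g' + f g + B (c g') (c g)) ∧
      ∃ k ∈ G₂, c k = 0 ∧ f k ≠ 0

/-- **AFIN** (409): if the image of `K` is finite, the quotient is virtually abelian. -/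
def FinAStmt : Prop :=
  ∀ (Γ Q : Type) [Group Γ] [Group Q] (q : Γ →* Q), Function.Surjective q → Group.FG Γ →
    ∀ (G K : Subgroup Γ), G.FiniteIndex →
    ∀ (N : ℕ) (c : Γ → Cm N), (∀ g ∈ G, ∀ h ∈ G, c (g * h) = c g + c h) →
    (∀ g, g ∈ K ↔ g ∈ G ∧ c g = 0) → Finite (K.map q) → VirtuallyAbelian Q

/-! ### The fibre (446) -/

/-- **AQ** (446) -/
def FibConclQ : Prop :=
  ∀ (n : ℕ) (X : Type) [TopologicalSpace X] [T2Space X] [CompactSpace X] [ConnectedSpace X]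
    [ChartedSpace (Cm n) X] [IsManifold 𝓘(ℂ, Cm n) ω X]
    (w : Chart n X → Cm n → Matrix (Fin n) (Fin n) ℂ), IsKahler w →
    ∀ Φ : Cm n → X, FiniteOrder w Φ →
    ∀ (E Γ : Type) [TopologicalSpace E] [SimplyConnectedSpace E] [Group Γ] [MulAction Γ E]
      (p : E → X), IsGalois Γ p →
    ∀ (Q : Type) [Group Q] (q : Γ →* Q), Function.Surjective q → Folner Q →
    ∀ (G K : Subgroup Γ) (N : ℕ) (F : E → Cm N) (c : Γ → Cm N), Alb p w G K F c →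
    Infinite (K.map q) → Group.FG (K.map q) ∧ VirtIndicable (K.map q)

def FibStmtQ : Prop :=
  RankStmt2 → S4Stmt2 → GeoStmt → FDStmt2 → Part1 → V15Stmt → V17Stmt → V18Stmt → FibConclQ

/-! ### Twisted functions on the pieces -/

section
variable {n : ℕ}

/-- `(a, b) = Σ w^{k̄ j} a_j conj(b_k)` -/
def ipw (w : Cm n → Matrix (Fin n) (Fin n) ℂ) (a b : Cm n) (z : Cm n) : ℂ :=
  ∑ j, ∑ k, (w z)⁻¹ k j * a j * conj (b k)

/-- `∂u` -/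
def dd (u : Cm n → ℂ) (z : Cm n) : Cm n := fun j => dz j u z

/-- `|∂ψ ∧ ∂u|²` -/
def W1 (w : Cm n → Matrix (Fin n) (Fin n) ℂ) (ψ : Cm n → ℝ) (u : Cm n → ℂ) (z : Cm n) : ℝ :=
  (ipw w (dd (fun y => (ψ y : ℂ)) z) (dd (fun y => (ψ y : ℂ)) z) z).re *
      (ipw w (dd u z) (dd u z) z).re -
    ‖ipw w (dd u z) (dd (fun y => (ψ y : ℂ)) z) z‖ ^ 2

/-- `|∂̄ψ ∧ ∂̄u|²` -/
def W2 (w : Cm n → Matrix (Fin n) (Fin n) ℂ) (ψ : Cm n → ℝ) (u : Cm n → ℂ) (z : Cm n) : ℝ :=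
  W1 w ψ (fun y => conj (u y)) z

/-- `Δu - ⟨∂u, ∂ψ⟩ - ⟨∂ψ, ∂̄u⟩` -/
def tau (w : Cm n → Matrix (Fin n) (Fin n) ℂ) (ψ : Cm n → ℝ) (u : Cm n → ℂ) (z : Cm n) : ℂ :=
  ∑ j, ∑ k, (w z)⁻¹ k j * (dz j (fun y => dzb k u y) z - dz j u z * dzb k (fun y => (ψ y : ℂ)) z -
    dz j (fun y => (ψ y : ℂ)) z * dzb k u z)

/-- the Laplacian of a complex function -/
def lapC (w : Cm n → Matrix (Fin n) (Fin n) ℂ) (s : Cm n → ℂ) (z : Cm n) : ℂ :=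
  (lap w (fun y => (s y).re) z : ℂ) + Complex.I * (lap w (fun y => (s y).im) z : ℂ)

end

section
variable {n : ℕ} {Γ : Type} [Group Γ]

/-- `ψ` is pluriharmonic with periods `log |χ|`. -/
structure Psi (C : Coc n Γ) (χ : Γ → ℂ) (ψ : Γ → C.I → Cm n → ℝ) : Prop where
  ne : ∀ g, χ g ≠ 0
  smooth : ∀ γ a, ∀ z ∈ C.Ω a, ContDiffAt ℝ ∞ (ψ γ a) z
  hess : ∀ γ a, ∀ z ∈ C.Ω a, cHess (ψ γ a) z = 0
  compat : ∀ γ a b, ∀ z ∈ C.O a b, ψ γ a z = ψ (γ * C.κ a b z) b (C.T a b z)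
  equi : ∀ g γ a, ∀ z ∈ C.Ω a, ψ (g * γ) a z = ψ γ a z + Real.log ‖χ g‖

/-- `u` is smooth with `u (g y) = χ(g) u(y) + f(g)`. -/
structure Tw (C : Coc n Γ) (χ f : Γ → ℂ) (u : Γ → C.I → Cm n → ℂ) : Prop where
  smooth : ∀ γ a, ∀ z ∈ C.Ω a, ContDiffAt ℝ ∞ (u γ a) z
  compat : ∀ γ a b, ∀ z ∈ C.O a b, u γ a z = u (γ * C.κ a b z) b (C.T a b z)
  equi : ∀ g γ a, ∀ z ∈ C.Ω a, u (g * γ) a z = χ g * u γ a z + f g

/-- a smooth nonnegative function on the base -/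
structure Pot (C : Coc n Γ) (q : C.I → Cm n → ℝ) : Prop where
  smooth : ∀ a, ∀ z ∈ C.Ω a, ContDiffAt ℝ ∞ (q a) z
  nonneg : ∀ a, ∀ z ∈ C.Ω a, 0 ≤ q a z
  compat : ∀ a b, ∀ z ∈ C.O a b, q a z = q b (C.T a b z)

end

/-- **A2** (66): the twisted Kähler identity (inequality form), on the base. -/
def TwKStmt : Prop :=
  ∀ (n : ℕ) (Γ : Type) [Group Γ] (C : Coc n Γ) (P : PU C) (K : KM C) (χ f : Γ → ℂ)
    (ψ : Γ → C.I → Cm n → ℝ) (u : Γ → C.I → Cm n → ℂ), Psi C χ ψ → Tw C χ f u →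
    BInt P K (fun a z => Real.exp (-2 * ψ 1 a z) *
        (W1 (K.w a) (ψ 1 a) (u 1 a) z + W2 (K.w a) (ψ 1 a) (u 1 a) z)) ≤
      BInt P K (fun a z => Real.exp (-2 * ψ 1 a z) * ‖tau (K.w a) (ψ 1 a) (u 1 a) z‖ ^ 2)

/-- **A4** (730): dense range on the base, twisted by the unitary character `σ`, with potential `q`. -/
def DensStmt : Prop :=
  ∀ (n : ℕ) (Γ : Type) [Group Γ] (C : Coc n Γ) (P : PU C) (K : KM C) (σ : Γ → ℂ),
    (∀ g, ‖σ g‖ = 1) → (∀ g h, σ (g * h) = σ g * σ h) → ∀ q, Pot C q →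
    ∃ l₀ : ℝ, 0 < l₀ ∧ ∀ l : ℝ, l₀ ≤ l → ∀ s, Tw C σ 0 s → ∀ δ : ℝ, 0 < δ → ∃ v, Tw C σ 0 v ∧
      BInt P K (fun a z => ‖((l + q a z : ℝ) : ℂ) * v 1 a z - lapC (K.w a) (v 1 a) z -
        s 1 a z‖ ^ 2) < δ

/-- **A3** (730/639): integration by parts on the base for twisted functions (polarised real part). -/
def IbpStmt : Prop :=
  ∀ (n : ℕ) (Γ : Type) [Group Γ] (C : Coc n Γ) (P : PU C) (K : KM C) (σ : Γ → ℂ),
    (∀ g, ‖σ g‖ = 1) → ∀ s v, Tw C σ 0 s → Tw C σ 0 v →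
      BInt P K (fun a z => (lapC (K.w a) (s 1 a) z * conj (v 1 a z)).re) =
        -BInt P K (fun a z => gr (K.w a) (fun y => (s 1 a y).re) (fun y => (v 1 a y).re) z +
          gr (K.w a) (fun y => (s 1 a y).im) (fun y => (v 1 a y).im) z)

/-- **A6** (958/5): bounded in `L²`, energy and `∫ q |h|²` tend to `0`, `q ≢ 0`: weakly to `0` (in fact
`∫ |h|² → 0`). -/
def PoinStmt : Prop :=
  ∀ (n : ℕ) (Γ : Type) [Group Γ] (C : Coc n Γ) (P : PU C) (K : KM C) (σ : Γ → ℂ),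
    (∀ g, ‖σ g‖ = 1) → (∀ g h, σ (g * h) = σ g * σ h) → ∀ q, Pot C q →
    (∃ a, ∃ z ∈ C.Ω a, q a z ≠ 0) → ∀ h : ℕ → Γ → C.I → Cm n → ℂ, (∀ j, Tw C σ 0 (h j)) →
    (∃ B : ℝ, ∀ j, BInt P K (fun a z => ‖h j 1 a z‖ ^ 2) ≤ B) →
    Tendsto (fun j => BInt P K (fun a z =>
      gr (K.w a) (fun y => (h j 1 a y).re) (fun y => (h j 1 a y).re) z +
      gr (K.w a) (fun y => (h j 1 a y).im) (fun y => (h j 1 a y).im) z +
      q a z * ‖h j 1 a z‖ ^ 2)) atTop (𝓝 0) →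
    Tendsto (fun j => BInt P K (fun a z => ‖h j 1 a z‖ ^ 2)) atTop (𝓝 0)

/-- **A5** (977): abstract lemma (resolvent `l → 0`). -/
def ResStmt : Prop :=
  ∀ (V : Type) [AddCommGroup V] [Module ℝ V] (ip en : V →ₗ[ℝ] V →ₗ[ℝ] ℝ) (L : V →ₗ[ℝ] V),
    (∀ f h, ip f h = ip h f) → (∀ f, 0 ≤ ip f f) → (∀ f h, en f h = en h f) → (∀ f, 0 ≤ en f f) →
    (∀ f h, ip (L f) h = -en f h) →
    (∃ l₀ : ℝ, 0 < l₀ ∧ ∀ l, l₀ ≤ l → ∀ f, ∀ δ : ℝ, 0 < δ → ∃ v,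
      ip (l • v - L v - f) (l • v - L v - f) < δ) →
    (∀ h : ℕ → V, (∃ B : ℝ, ∀ j, ip (h j) (h j) ≤ B) →
      Tendsto (fun j => en (h j) (h j)) atTop (𝓝 0) →
      Tendsto (fun j => ip (h j) (h j)) atTop (𝓝 0)) →
    ∀ f, ∀ δ : ℝ, 0 < δ → ∃ v, ip (L v - f) (L v - f) < δ

/-- Conclusion of **AX** (977): existence of twisted functions with small `∂ψ ∧ ∂u`. -/
def ExConclA : Prop :=
  ∀ (n : ℕ) (Γ : Type) [Group Γ] (C : Coc n Γ) (P : PU C) (K : KM C) (χ f : Γ → ℂ)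
    (ψ : Γ → C.I → Cm n → ℝ), (∀ g h, χ (g * h) = χ g * χ h) →
    (∀ g h, f (g * h) = f g + χ g * f h) → Psi C χ ψ →
    (∃ a, ∃ z ∈ C.Ω a, fderiv ℝ (ψ 1 a) z ≠ 0) →
    ∀ ε : ℝ, 0 < ε → ∃ u, Tw C χ f u ∧
      BInt P K (fun a z => Real.exp (-2 * ψ 1 a z) *
        (W1 (K.w a) (ψ 1 a) (u 1 a) z + W2 (K.w a) (ψ 1 a) (u 1 a) z)) < ε

/-- **AX** (977): `u₀ γ a z = Σ_b χ_b f(γ κ_ab)`; `s = e^{-ψ} v`, `tau (e^ψ s) = e^ψ (lapC s - q s)`,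
`q = gr ψ ψ`; `V` = the module of `Tw C (χ/|χ|) 0`, `L s = lapC s - q s` (extended by `0`). -/
def ExStmtA : Prop := TwKStmt → DensStmt → IbpStmt → PoinStmt → ResStmt → ExConclA

/-! ### The covering space -/

/-- Conclusion of **AE** (35/639): on the covering. -/
def ElConcl : Prop :=
  ∀ (n : ℕ) (X : Type) [TopologicalSpace X] [T2Space X] [CompactSpace X] [ConnectedSpace X]
    [ChartedSpace (Cm n) X] [IsManifold 𝓘(ℂ, Cm n) ω X]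
    (w : Chart n X → Cm n → Matrix (Fin n) (Fin n) ℂ), IsKahler w →
    ∀ (E Γ : Type) [TopologicalSpace E] [ConnectedSpace E] [Group Γ] [MulAction Γ E]
      (p : E → X), IsGalois Γ p →
    ∀ (G₁ : Subgroup Γ), G₁.FiniteIndex → ∀ (χ f : Γ → ℂ) (ψ : E → ℝ) (B : ℝ),
    (∀ g ∈ G₁, χ g ≠ 0) → (∀ g ∈ G₁, ∀ h ∈ G₁, χ (g * h) = χ g * χ h) →
    (∀ g ∈ G₁, ∀ h ∈ G₁, f (g * h) = f g + χ g * f h) →
    IsPHB p w ψ B → (∀ g ∈ G₁, ∀ y, ψ (g • y) = ψ y + Real.log ‖χ g‖) → (∃ y y', ψ y ≠ ψ y') →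
    ∃ u : ℕ → E → ℂ, (∀ j, ∀ g ∈ G₁, ∀ y, u j (g • y) = χ g * u j y + f g) ∧
      ∀ y : E, ∃ (e : Chart n X) (O : Set E) (ρ : ℝ) (ψe : Cm n → ℝ) (h : ℕ → Cm n → ℂ),
        At e (p y) ∧ IsOpen O ∧ y ∈ O ∧ 0 < ρ ∧ (∀ y' ∈ O, At e (p y')) ∧
        (∀ y' ∈ O, ψ y' = ψe (e (p y'))) ∧ (∀ j, ∀ y' ∈ O, u j y' = h j (e (p y'))) ∧
        (∀ z ∈ ball (e (p y)) ρ, ContDiffAt ℝ ∞ ψe z) ∧
        (∀ j, ∀ z ∈ ball (e (p y)) ρ, ContDiffAt ℝ ∞ (h j) z) ∧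
        Tendsto (fun j => ∫⁻ z in ball (e (p y)) ρ,
          ENNReal.ofReal (W1 (w e) ψe (h j) z + W2 (w e) ψe (h j) z)) atTop (𝓝 0)

/-- **AE** (35): from the pieces of `sub C G₁` (446) to `E`. -/
def ElStmt : Prop := ExConclA → ElConcl

/-- Conclusion of **AU**: unitarity. -/
def UniConcl : Prop :=
  ∀ (n : ℕ) (X : Type) [TopologicalSpace X] [T2Space X] [CompactSpace X] [ConnectedSpace X]
    [ChartedSpace (Cm n) X] [IsManifold 𝓘(ℂ, Cm n) ω X]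
    (w : Chart n X → Cm n → Matrix (Fin n) (Fin n) ℂ), IsKahler w →
    ∀ Φ : Cm n → X, FiniteOrder w Φ →
    ∀ (E Γ : Type) [TopologicalSpace E] [SimplyConnectedSpace E] [Group Γ] [MulAction Γ E]
      (p : E → X), IsGalois Γ p →
    ∀ (G K : Subgroup Γ) (N : ℕ) (F : E → Cm N) (c : Γ → Cm N), Alb p w G K F c → Uni G c

/-- **AU** (913/10): `log |χ| = λ ∘ c` (`Alb.max`, `H409.exists_lin`), `ψ = λ ∘ F`; the tube lemma along
the component of a regular fibre; `S` has finite index in `K`. -/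
def UniStmt : Prop := ElConcl → RankStmt2 → S4Stmt2 → LiftStmt → UniConcl

/-! ### The theorems -/

/-- Theorem Q: quotients of subexponential growth. -/
def MainQ : Prop :=
  ∀ (n : ℕ) (X : Type) [TopologicalSpace X] [T2Space X] [CompactSpace X] [ConnectedSpace X]
    [ChartedSpace (Cm n) X] [IsManifold 𝓘(ℂ, Cm n) ω X]
    (w : Chart n X → Cm n → Matrix (Fin n) (Fin n) ℂ), IsKahler w →
    ∀ Φ : Cm n → X, FiniteOrder w Φ →
    ∀ (E Γ : Type) [TopologicalSpace E] [SimplyConnectedSpace E] [Group Γ] [MulAction Γ E]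
      (p : E → X), IsGalois Γ p →
    ∀ (Q : Type) [Group Q] (q : Γ →* Q), Function.Surjective q → SubexpGrowth Q →
    VirtuallyAbelian Q

/-- Theorem A: amenable quotients. -/
def MainA : Prop :=
  ∀ (n : ℕ) (X : Type) [TopologicalSpace X] [T2Space X] [CompactSpace X] [ConnectedSpace X]
    [ChartedSpace (Cm n) X] [IsManifold 𝓘(ℂ, Cm n) ω X]
    (w : Chart n X → Cm n → Matrix (Fin n) (Fin n) ℂ), IsKahler w →
    ∀ Φ : Cm n → X, FiniteOrder w Φ →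
    ∀ (E Γ : Type) [TopologicalSpace E] [SimplyConnectedSpace E] [Group Γ] [MulAction Γ E]
      (p : E → X), IsGalois Γ p →
    ∀ (Q : Type) [Group Q] (q : Γ →* Q), Function.Surjective q → Folner Q →
    VirtuallyAbelian Q

/-- Theorem A for the fundamental group. -/
def MainPiA : Prop :=
  ∀ (n : ℕ) (X : Type) [TopologicalSpace X] [T2Space X] [CompactSpace X] [ConnectedSpace X]
    [ChartedSpace (Cm n) X] [IsManifold 𝓘(ℂ, Cm n) ω X]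
    (w : Chart n X → Cm n → Matrix (Fin n) (Fin n) ℂ), IsKahler w →
    ∀ Φ : Cm n → X, FiniteOrder w Φ →
    ∀ (x : X) (Q : Type) [Group Q] (q : FundamentalGroup X x →* Q), Function.Surjective q →
    Folner Q → VirtuallyAbelian Q

/-- Theorem Q for the fundamental group. -/
def MainPiQ : Prop :=
  ∀ (n : ℕ) (X : Type) [TopologicalSpace X] [T2Space X] [CompactSpace X] [ConnectedSpace X]
    [ChartedSpace (Cm n) X] [IsManifold 𝓘(ℂ, Cm n) ω X]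
    (w : Chart n X → Cm n → Matrix (Fin n) (Fin n) ℂ), IsKahler w →
    ∀ Φ : Cm n → X, FiniteOrder w Φ →
    ∀ (x : X) (Q : Type) [Group Q] (q : FundamentalGroup X x →* Q), Function.Surjective q →
    SubexpGrowth Q → VirtuallyAbelian Q

/-- **API** (977): universal covering. -/
def PiStmtA : Prop := (MainA → MainPiA) ∧ (MainQ → MainPiQ)

/-- the end of the proof, common to `MainQ` and `MainA` -/
theorem end_of (h15 : V15Stmt) (hR : RankStmt2) (hS : StkStmt) (hL : LiftStmt)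
    {n : ℕ} {X : Type} [TopologicalSpace X] [T2Space X] [CompactSpace X] [ConnectedSpace X]
    [ChartedSpace (Cm n) X] [IsManifold 𝓘(ℂ, Cm n) ω X]
    {w : Chart n X → Cm n → Matrix (Fin n) (Fin n) ℂ} (hw : IsKahler w)
    {Φ : Cm n → X} (hΦ : FiniteOrder w Φ)
    {E Γ : Type} [TopologicalSpace E] [SimplyConnectedSpace E] [Group Γ] [MulAction Γ E]
    {p : E → X} (hp : IsGalois Γ p) {G K : Subgroup Γ} {N : ℕ} {F : E → Cm N} {c : Γ → Cm N}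
    (hAl : Alb p w G K F c)
    (h : ∃ G₂ : Subgroup Γ, G₂.FiniteIndex ∧ G₂ ≤ G ∧
      ∃ (f : Γ → ℝ) (B : Cm N →ₗ[ℝ] Cm N →ₗ[ℝ] ℝ),
      (∀ g' ∈ G₂, ∀ g ∈ G₂, f (g' * g) = f g' + f g + B (c g') (c g)) ∧
      ∃ k ∈ G₂, c k = 0 ∧ f k ≠ 0) : False := by
  have hadd := alb_add hAl
  obtain ⟨G₂, hG₂, hle, f, B, hf, k, hk, hk0, hfk⟩ := h
  obtain ⟨Φl, hΦl, hpΦ⟩ := hL n X E p hp.cov hp.surj Φ hΦ.holo.continuous
  obtain ⟨P, -, ζ, hζ, -⟩ := hR n X w hw Φ hΦ E Γ p hp G K N F c hAl Φl hΦl hpΦ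
  have hsym := hS n X w hw E Γ p hp N F hAl.hol ⟨_, hζ⟩ G₂ c hG₂
    (fun g hg y => hAl.equiv g (hle hg) y) f B hf
  have h1 := hAl.max G₂ hG₂ hle (fun g => f g - B (c g) (c g) / 2) (by
    intro g hg h hh
    show f (g * h) - B (c (g * h)) (c (g * h)) / 2 = _
    rw [hf g hg h hh, hadd g (hle hg) h (hle hh)]
    simp only [map_add, LinearMap.add_apply]
    rw [hsym (c h) (c g)]
    ring) k hk hk0
  apply hfk
  rw [hk0] at h1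
  simpa using h1

theorem mainQ_of (h15 : V15Stmt) (hA : AlbStmt2) (hR : RankStmt2) (hF : FibConclQ)
    (hG : GrpQStmt) (hS : StkStmt) (hN : FinAStmt) (hL : LiftStmt) : MainQ := by
  intro n X _ _ _ _ _ _ w hw Φ hΦ E Γ _ _ _ _ p hp Q _ q hq hgr
  obtain ⟨_, _, _, hfg, -⟩ := h15 n X w hw E Γ p hp
  obtain ⟨G, K, N, F, c, hAl⟩ := hA n X w hw Φ hΦ E Γ p hp
  have hadd := alb_add hAl
  by_cases hK : Finite (K.map q)
  · exact hN Γ Q q hq hfg G K hAl.fi N c hadd hAl.mem hK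
  exfalso
  rw [not_finite_iff_infinite] at hK
  obtain ⟨hKf, hKv⟩ := hF n X w hw Φ hΦ E Γ p hp Q q hq hgr.folner G K N F c hAl hK
  exact end_of h15 hR hS hL hw hΦ hp hAl
    (hG Γ Q q hq hfg hgr G K hAl.fi N c hadd hAl.mem hAl.disc hAl.span hKf hKv)

theorem mainA_of (h15 : V15Stmt) (hA : AlbStmt2) (hR : RankStmt2) (hF : FibConclQ)
    (hG : GrpAStmt) (hU : UniConcl) (hS : StkStmt) (hN : FinAStmt) (hL : LiftStmt) : MainA := by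
  intro n X _ _ _ _ _ _ w hw Φ hΦ E Γ _ _ _ _ p hp Q _ q hq hfo
  obtain ⟨_, _, _, hfg, -⟩ := h15 n X w hw E Γ p hp
  obtain ⟨G, K, N, F, c, hAl⟩ := hA n X w hw Φ hΦ E Γ p hp
  have hadd := alb_add hAl
  by_cases hK : Finite (K.map q)
  · exact hN Γ Q q hq hfg G K hAl.fi N c hadd hAl.mem hK
  exfalso
  rw [not_finite_iff_infinite] at hK
  obtain ⟨hKf, hKv⟩ := hF n X w hw Φ hΦ E Γ p hp Q q hq hfo G K N F c hAl hK
  exact end_of h15 hR hS hL hw hΦ hp hAl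
    (hG Γ Q q hq hfg G K hAl.fi N c hadd hAl.mem hAl.disc hAl.span hKf hKv
      (hU n X w hw Φ hΦ E Γ p hp G K N F c hAl))

end Vale.Agent.P284.H409.A
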