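import Vale.Agent.P284.H894.W.Spec
import Vale.Agent.P284.H409.Ext

/-!
# P284, row WFIN (helper409): `FinStmt`.
-/

open scoped commutatorElement Pointwise Topology

noncomputable section

namespace Vale.Agent.P284.H409

open Vale.Agent.P272.K Vale.Agent.P284.H894.V Vale.Agent.P284.H894.G

/-- **WFIN.** -/
theorem finStmt : Vale.Agent.P284.H894.W.FinStmt := by
  intro Γ _ hfg G K hGi N c hc hK hfin
  have hKG : K ≤ G := fun g hg => ((hK g).1 hg).1
  have hc1 : c 1 = 0 := by
    have := hc 1 G.one_mem 1 G.one_mem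
    rw [one_mul] at this
    exact (left_eq_add.1 this)
  have hci : ∀ g ∈ G, c g⁻¹ = - c g := by
    intro g hg
    have := hc g hg g⁻¹ (G.inv_mem hg)
    rw [mul_inv_cancel, hc1] at this
    exact (neg_eq_of_add_eq_zero_right this.symm).symm
  have hGfg : Group.FG G := Subgroup.fg_of_index_ne_zero G
  let KG : Subgroup G := K.subgroupOf G
  have hKGf : Finite KG := Finite.of_equiv _ (Subgroup.subgroupOfEquivOfLe hKG).symm.toEquiv
  have hcomm : ∀ g h : G, ⁅g, h⁆ ∈ KG := by
    intro g h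
    rw [Subgroup.mem_subgroupOf, hK]
    refine ⟨(⁅g, h⁆ : G).2, ?_⟩
    rw [commutatorElement_def]
    have m1 := G.mul_mem g.2 h.2
    have m2 := G.mul_mem m1 (G.inv_mem g.2)
    push_cast
    rw [hc _ m2 _ (G.inv_mem h.2), hc _ m1 _ (G.inv_mem g.2), hc _ g.2 _ h.2, hci _ g.2, hci _ h.2]
    abel
  obtain ⟨A, hA, -, hAc⟩ := finite_by_abelian KG ⊥ (by
    rw [Subgroup.relIndex_bot_left]
    exact Nat.card_pos.ne') hcomm
  refine ⟨A.map G.subtype, ?_, ?_⟩
  · rw [Subgroup.finiteIndex_iff, Subgroup.index_map_subtype]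
    exact mul_ne_zero hA.index_ne_zero hGi.index_ne_zero
  · rintro _ ⟨x, hx, rfl⟩ _ ⟨y, hy, rfl⟩
    have h1 := hAc x hx y hy
    rw [Subgroup.mem_bot, commutatorElement_eq_one_iff_mul_comm] at h1
    exact congrArg Subtype.val h1

end Vale.Agent.P284.H409
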