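import Vale.Agent.P284.H409.Core

/-!
# P284, theorem A, groups (helper409): S6 from a bound on the eigenvalues instead of the growth.
-/

open scoped Pointwise commutatorElement
open Module

noncomputable section

namespace Vale.Agent.P284.H409

section Act
variable {G : Type*} [Group G] {K : Subgroup G} [hK : K.Normal]

/-- an eigenvalue is a root of unity -/
theorem pow_eq_one' [hfg : Group.FG K] {g : G}
    (hN : ∀ ψ : Additive K →+ ℂ, ψ ≠ 0 → ∀ μ : ℂ, rh K g ψ = μ • ψ → ‖μ‖ = 1)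
    {φ : Additive K →+ ℂ} (hφ : φ ≠ 0)
    {χ : ℂ} (h : rh K g φ = χ • φ) : ∃ n : ℕ, 0 < n ∧ χ ^ n = 1 := by
  have hint : IsIntegral ℤ χ := isInt hφ h
  have hintQ : IsIntegral ℚ χ := hint.tower_top
  let L : IntermediateField ℚ ℂ := IntermediateField.adjoin ℚ {χ}
  have : FiniteDimensional ℚ L := IntermediateField.adjoin.finiteDimensional hintQ
  have : NumberField L := ⟨⟩
  let x : L := ⟨χ, IntermediateField.mem_adjoin_simple_self ℚ χ⟩
  have hx : IsIntegral ℤ x := by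
    have : IsIntegral ℤ (algebraMap L ℂ x) := hint
    exact (isIntegral_algebraMap_iff (algebraMap L ℂ).injective).1 this
  obtain ⟨a, ha⟩ : ∃ a, φ a ≠ 0 := by
    by_contra hcon
    push Not at hcon
    exact hφ (by ext x; exact hcon x)
  obtain ⟨ℓ, hℓ⟩ : ∃ ℓ : Module.Dual L ℂ, ℓ (φ a) ≠ 0 := by
    by_contra hcon
    push Not at hcon
    exact ha ((Module.forall_dual_apply_eq_zero_iff L (φ a)).1 hcon)
  have h1 : ∀ σ : L →+* ℂ, ‖σ x‖ = 1 := by
    intro σ
    let ψ : Additive K →+ ℂ := (σ : L →+ ℂ).comp ((ℓ : ℂ →+ L).comp φ)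
    have hψ : ψ ≠ 0 := by
      intro h0
      have h2 : σ (ℓ (φ a)) = 0 := DFunLike.congr_fun h0 a
      exact hℓ ((map_eq_zero σ).1 h2)
    refine hN ψ hψ _ ?_
    ext y
    change σ (ℓ (rh K g φ (Additive.ofMul y))) = σ x * σ (ℓ (φ (Additive.ofMul y)))
    rw [h, AddMonoidHom.smul_apply, ← map_mul]
    congr 1
    have : χ • φ (Additive.ofMul y) = x • φ (Additive.ofMul y) := rfl
    rw [this, map_smul]
    rfl
  obtain ⟨n, hn, hn1⟩ := NumberField.Embeddings.pow_eq_one_of_norm_eq_one L ℂ hx h1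
  refine ⟨n, hn, ?_⟩
  have := congrArg (algebraMap L ℂ) hn1
  simpa using this

/-- commuting operators have a common eigenvector in an invariant subspace -/
theorem common' {V : Type*} [AddCommGroup V] [Module ℂ V] [FiniteDimensional ℂ V]
    {ι : Type*} (T : ι → Module.End ℂ V) (hT : ∀ i j, Commute (T i) (T j)) (W0 : Submodule ℂ V)
    (hW0 : W0 ≠ ⊥) (hinv0 : ∀ i, ∀ v ∈ W0, T i v ∈ W0) (s : Finset ι) :
    ∃ W : Submodule ℂ V, W ≤ W0 ∧ W ≠ ⊥ ∧ (∀ i, ∀ v ∈ W, T i v ∈ W) ∧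
      ∀ i ∈ s, ∃ c : ℂ, ∀ v ∈ W, T i v = c • v := by
  classical
  induction s using Finset.induction_on with
  | empty => exact ⟨W0, le_rfl, hW0, hinv0, by simp⟩
  | insert j s hj ih =>
    obtain ⟨W, hWW, hW, hinv, hsc⟩ := ih
    have : Nontrivial W := Submodule.nontrivial_iff_ne_bot.2 hW
    obtain ⟨c, hc⟩ := Module.End.exists_eigenvalue ((T j).restrict (hinv j))
    obtain ⟨v, hv⟩ := hc.exists_hasEigenvector
    refine ⟨W ⊓ LinearMap.ker (T j - c • 1), inf_le_left.trans hWW, ?_, ?_, ?_⟩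
    · intro h0
      have h1 : (v : V) ∈ W ⊓ LinearMap.ker (T j - c • 1) := by
        refine ⟨v.2, LinearMap.mem_ker.2 ?_⟩
        have h2 : T j (v : V) = c • (v : V) := by
          have := congrArg Subtype.val hv.apply_eq_smul
          simpa using this
        change T j (v : V) - c • (v : V) = 0
        rw [h2, sub_self]
      rw [h0, Submodule.mem_bot] at h1
      exact hv.2 (Subtype.ext h1)
    · rintro i v ⟨hv1, hv2⟩
      have h0 : T j v - c • v = 0 := LinearMap.mem_ker.1 hv2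
      refine ⟨hinv i v hv1, LinearMap.mem_ker.2 ?_⟩
      have h1 : T j (T i v) = T i (T j v) := by
        have := LinearMap.congr_fun (hT j i) v
        exact this
      change T j (T i v) - c • (T i v) = 0
      rw [h1, sub_eq_zero.1 h0, map_smul, sub_self]
    · intro i hi
      rcases Finset.mem_insert.1 hi with rfl | hi
      · refine ⟨c, fun v hv => ?_⟩
        have h0 := LinearMap.mem_ker.1 hv.2
        exact sub_eq_zero.1 h0
      · obtain ⟨c', hc'⟩ := hsc i hi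
        exact ⟨c', fun v hv => hc' v hv.1⟩

variable (K) in
/-- a common eigenvector with prescribed eigenvalue at one element -/
theorem exists_char_eig [hGfg : Group.FG G] [hfg : Group.FG K] (G1 : Subgroup G)
    [hfi : G1.FiniteIndex] (hcomm : ∀ g ∈ G1, ∀ h ∈ G1, ⁅g, h⁆ ∈ K) {g₀ : G} (hg₀ : g₀ ∈ G1)
    {ψ : Additive K →+ ℂ} (hψ : ψ ≠ 0) {μ : ℂ} (h : rh K g₀ ψ = μ • ψ) :
    ∃ (φ : Additive K →+ ℂ) (c : G1 → ℂ), φ ≠ 0 ∧ (∀ g : G1, rh K (g : G) φ = c g • φ) ∧
      (∀ g, c g ≠ 0) ∧ (∀ a b, c (a * b) = c a * c b) ∧ c ⟨g₀, hg₀⟩ = μ := by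
  classical
  have hfd := finDim K
  have hG1fg : Group.FG G1 := Subgroup.fg_of_index_ne_zero G1
  obtain ⟨S, hS⟩ := Group.FG.out (G := G1)
  let W0 : Submodule ℂ (Additive K →+ ℂ) := LinearMap.ker (rh K g₀ - μ • 1)
  have hW0m : ∀ v, v ∈ W0 ↔ rh K g₀ v = μ • v := by
    intro v
    rw [LinearMap.mem_ker]
    change rh K g₀ v - μ • v = 0 ↔ _
    exact sub_eq_zero
  obtain ⟨W, hWW, hW, hinv, hsc⟩ := common' (fun g : G1 => rh K (g : G))
    (fun g h => rh_comm K (hcomm g g.2 h h.2)) W0 (fun h0 => hψ (by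
      have : ψ ∈ W0 := (hW0m ψ).2 h
      rw [h0, Submodule.mem_bot] at this
      exact this)) (by
      intro g v hv
      rw [hW0m] at hv ⊢
      have h1 : rh K g₀ (rh K (g : G) v) = rh K (g : G) (rh K g₀ v) := by
        have := LinearMap.congr_fun (rh_comm K (hcomm g₀ hg₀ g g.2)) v
        exact this
      rw [h1, hv, map_smul]) S
  obtain ⟨φ, hφW, hφ⟩ := Submodule.exists_mem_ne_zero_of_ne_bot hW
  have hsc' : ∀ g : G1, ∃ c : ℂ, rh K (g : G) φ = c • φ := by
    have h1 : Subgroup.closure (S : Set G1) = ⊤ := hS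
    intro g
    have hg : g ∈ Subgroup.closure (S : Set G1) := h1 ▸ Subgroup.mem_top g
    induction hg using Subgroup.closure_induction with
    | mem x hx =>
      obtain ⟨c, hc⟩ := hsc x hx
      exact ⟨c, hc φ hφW⟩
    | one => exact ⟨1, by rw [Subgroup.coe_one, rh_one]; simp⟩
    | mul x y _ _ hx hy =>
      obtain ⟨c, hc⟩ := hx
      obtain ⟨d, hd⟩ := hy
      refine ⟨c * d, ?_⟩
      rw [Subgroup.coe_mul, rh_mul, Module.End.mul_apply, hc, map_smul, hd, smul_smul]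
    | inv x _ hx =>
      obtain ⟨c, hc⟩ := hx
      refine ⟨c⁻¹, ?_⟩
      have hi : rh K (x : G)⁻¹ (rh K x φ) = φ := by
        rw [← Module.End.mul_apply, ← rh_mul, mul_inv_cancel, rh_one]; rfl
      have hc0 : c ≠ 0 := by
        rintro rfl
        rw [hc, zero_smul, map_zero] at hi
        exact hφ hi.symm
      rw [hc, map_smul] at hi
      rw [Subgroup.coe_inv]
      calc rh K (x : G)⁻¹ φ = c⁻¹ • (c • rh K (x : G)⁻¹ φ) := by
            rw [smul_smul, inv_mul_cancel₀ hc0, one_smul]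
        _ = c⁻¹ • φ := by rw [hi]
  choose c hc using hsc'
  have hinj : ∀ a b : ℂ, a • φ = b • φ → a = b := fun a b h => by
    by_contra hne'
    have : (a - b) • φ = 0 := by rw [sub_smul, h, sub_self]
    rcases smul_eq_zero.1 this with h1 | h1
    · exact hne' (sub_eq_zero.1 h1)
    · exact hφ h1
  refine ⟨φ, c, hφ, hc, ?_, ?_, ?_⟩
  · intro g h0
    have hi : rh K (g : G)⁻¹ (rh K g φ) = φ := by
      rw [← Module.End.mul_apply, ← rh_mul, mul_inv_cancel, rh_one]; rfl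
    rw [hc, h0, zero_smul, map_zero] at hi
    exact hφ hi.symm
  · intro a b
    refine hinj _ _ ?_
    rw [← hc, Subgroup.coe_mul, rh_mul, Module.End.mul_apply, hc a, map_smul, hc b, smul_smul]
  · refine hinj _ _ ?_
    rw [← hc]
    exact (hW0m φ).1 (hWW hφW)

variable (K) in
/-- **S6** with a bound on the eigenvalues. -/
theorem s6' [hGfg : Group.FG G] [hfg : Group.FG K]
    (hne : ∃ φ : Additive K →+ ℝ, φ ≠ 0) (G1 : Subgroup G) [hfi : G1.FiniteIndex] (hKG1 : K ≤ G1)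
    (hcomm : ∀ g ∈ G1, ∀ h ∈ G1, ⁅g, h⁆ ∈ K)
    (hN : ∀ g ∈ G1, ∀ ψ : Additive K →+ ℂ, ψ ≠ 0 → ∀ μ : ℂ, rh K g ψ = μ • ψ → ‖μ‖ = 1) :
    ∃ G2 : Subgroup G, G2 ≤ G1 ∧ G2.FiniteIndex ∧ K ≤ G2 ∧ ∃ φ : Additive K →+ ℝ, φ ≠ 0 ∧
      ∀ g ∈ G2, ∀ x : K, φ (Additive.ofMul ⟨g * x * g⁻¹, hK.conj_mem _ x.2 g⟩) =
        φ (Additive.ofMul x) := by
  classical
  obtain ⟨ψ₀, hψ₀⟩ : ∃ ψ : Additive K →+ ℂ, ψ ≠ 0 := by
    obtain ⟨φ, hφ⟩ := hne
    refine ⟨(Complex.ofRealHom : ℝ →+ ℂ).comp φ, fun h => hφ ?_⟩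
    ext x
    have := DFunLike.congr_fun h (Additive.ofMul x)
    exact Complex.ofReal_injective this
  obtain ⟨φ, c, hφ, hc, hc0, hcm, -⟩ := exists_char_eig K G1 hcomm (g₀ := 1) G1.one_mem hψ₀ (μ := 1)
    (by rw [rh_one, one_smul]; rfl)
  have hinj : ∀ a b : ℂ, a • φ = b • φ → a = b := fun a b h => by
    by_contra hne'
    have : (a - b) • φ = 0 := by rw [sub_smul, h, sub_self]
    rcases smul_eq_zero.1 this with h1 | h1
    · exact hne' (sub_eq_zero.1 h1)
    · exact hφ h1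
  let χ : G1 →* ℂˣ :=
    { toFun := fun g => Units.mk0 (c g) (hc0 g)
      map_one' := by
        ext
        refine hinj _ _ ?_
        simp only [Units.val_mk0, Units.val_one, one_smul]
        rw [← hc, Subgroup.coe_one, rh_one]; rfl
      map_mul' := fun g h => by
        ext
        simp only [Units.val_mk0, Units.val_mul]
        exact hcm g h }
  have hG1fg : Group.FG G1 := Subgroup.fg_of_index_ne_zero G1
  have hfin : Finite χ.range := by
    have h1 : Group.FG χ.range := Group.fg_range χ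
    refine CommGroup.finite_of_fg_isMulTorsion _ ?_
    rintro ⟨_, g, rfl⟩
    obtain ⟨n, hn, h1⟩ := pow_eq_one' (hN g g.2) hφ (hc g)
    rw [isOfFinOrder_iff_pow_eq_one]
    refine ⟨n, hn, ?_⟩
    ext
    simpa [χ] using h1
  have hker : χ.ker.FiniteIndex := inferInstance
  refine ⟨χ.ker.map G1.subtype, ?_, ?_, ?_, ?_⟩
  · exact Subgroup.map_subtype_le _
  · rw [Subgroup.finiteIndex_iff, Subgroup.index_map_subtype]
    exact mul_ne_zero hker.index_ne_zero hfi.index_ne_zero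
  · intro k hk
    refine ⟨⟨k, hKG1 hk⟩, ?_, rfl⟩
    have : χ ⟨k, hKG1 hk⟩ = 1 := by
      ext
      refine hinj _ _ ?_
      simp only [χ, MonoidHom.coe_mk, OneHom.coe_mk, Units.val_mk0, Units.val_one, one_smul]
      rw [← hc, rh_mem K hk]; rfl
    exact this
  · have hfix : ∀ g ∈ χ.ker.map G1.subtype, ∀ x : K,
        φ (Additive.ofMul ⟨g * x * g⁻¹, hK.conj_mem _ x.2 g⟩) = φ (Additive.ofMul x) := by
      rintro _ ⟨g, hg, rfl⟩ x
      have h1 : c g = 1 := congrArg Units.val (show χ g = 1 from hg)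
      have h2 := DFunLike.congr_fun (hc g) (Additive.ofMul x)
      rw [h1, one_smul, rh_apply] at h2
      exact h2
    by_cases hre : Complex.reAddGroupHom.comp φ = 0
    · refine ⟨Complex.imAddGroupHom.comp φ, fun him => hφ ?_, fun g hg x => ?_⟩
      · ext x
        refine Complex.ext ?_ ?_
        · exact DFunLike.congr_fun hre (Additive.ofMul x)
        · exact DFunLike.congr_fun him (Additive.ofMul x)
      · exact congrArg Complex.im (hfix g hg x)
    · exact ⟨Complex.reAddGroupHom.comp φ, hre, fun g hg x => congrArg Complex.re (hfix g hg x)⟩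

end Act

/-- `grp_core` with a bound on the eigenvalues instead of the growth -/
theorem grp_coreA {G : Type*} [Group G] [Group.FG G] (K : Subgroup G)
    (hKc : ∀ g h : G, ⁅g, h⁆ ∈ K) [Group.FG K] (H : Subgroup K) [H.FiniteIndex]
    (φ : Additive H →+ ℝ) (hφ : φ ≠ 0)
    (hE : ∀ (K2 : Subgroup G) (_ : K2.Normal), K2 ≤ K → Group.FG K2 →
      ∀ G1 : Subgroup G, G1.FiniteIndex →
      K2 ≤ G1 → (∀ g ∈ G1, ∀ h ∈ G1, ⁅g, h⁆ ∈ K2) → ∀ g ∈ G1, ∀ ψ : Additive K2 →+ ℂ, ψ ≠ 0 →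
      ∀ μ : ℂ, rh K2 g ψ = μ • ψ → ‖μ‖ = 1) :
    ∃ G2 : Subgroup G, G2.FiniteIndex ∧ ∃ (ω : G2 → G2 → ℝ) (f : G2 → ℝ),
      (∀ a b c, ω (a * b) c = ω a c + ω b c) ∧ (∀ a b c, ω a (b * c) = ω a b + ω a c) ∧
      (∀ a b, ω a b = - ω b a) ∧ (∀ a b, f (a * b) = f a + f b + ω a b) ∧
      (∀ a b : G2, (a : G) ∈ K → ω a b = 0) ∧ ∃ k : G2, (k : G) ∈ K ∧ f k ≠ 0 := by
  classical
  have hKn : K.Normal := by
    constructor
    intro k hk g
    have e : g * k * g⁻¹ = ⁅g, k⁆ * k := by simp [commutatorElement_def]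
    rw [e]; exact mul_mem (hKc g k) hk
  obtain ⟨L, hLH, hLf, hLa⟩ := exists_char H
  set K2 : Subgroup G := L.map K.subtype with hK2
  have hK2K : K2 ≤ K := Subgroup.map_subtype_le _
  have hK2n : K2.Normal := by
    constructor
    rintro _ ⟨x, hx, rfl⟩ g
    refine ⟨MulAut.conjNormal g x, hLa _ x hx, ?_⟩
    simp
  have hK2i : K2.subgroupOf K = L := by
    rw [hK2, Subgroup.subgroupOf, Subgroup.comap_map_eq_self_of_injective K.subtype_injective]
  have hK2r : K2.relIndex K ≠ 0 := by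
    rw [Subgroup.relIndex, hK2i]; exact hLf.index_ne_zero
  let eL : L ≃* K2 := L.equivMapOfInjective K.subtype K.subtype_injective
  have hK2fg : Group.FG K2 := Group.fg_of_surjective (f := eL.toMonoidHom) eL.surjective
  obtain ⟨G1, hG1f, hK2G1, hG1c⟩ := finite_by_abelian K K2 hK2r hKc
  -- a nonzero homomorphism on `K2`
  have hψ : ∃ ψ : Additive K2 →+ ℝ, ψ ≠ 0 := by
    let j : K2 →* H := (Subgroup.inclusion hLH).comp eL.symm.toMonoidHom
    refine ⟨φ.comp (MonoidHom.toAdditive j), fun h0 => hφ ?_⟩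
    ext x
    obtain ⟨m, hm, -, hxm⟩ := Subgroup.exists_pow_mem_of_index_ne_zero hLf.index_ne_zero
      ((Additive.toMul x : H) : K)
    have h1 := DFunLike.congr_fun h0 (Additive.ofMul (eL ⟨_, hxm⟩))
    have h2 : j (eL ⟨_, hxm⟩) = (Additive.toMul x : H) ^ m := by
      refine Subtype.ext ?_
      simp [j]
    have h3 : φ (Additive.ofMul ((Additive.toMul x : H) ^ m)) = 0 := by
      rw [← h2]; exact h1
    rw [ofMul_pow, map_nsmul] at h3
    have h4 : (m : ℝ) ≠ 0 := by exact_mod_cast hm.ne'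
    rw [nsmul_eq_mul] at h3
    exact (mul_eq_zero.1 h3).resolve_left h4
  obtain ⟨G2, hG21, hG2f, hK2G2, ψ, hψ0, hψi⟩ := s6' K2 hψ G1 hK2G1 hG1c
    (hE K2 hK2n hK2K hK2fg G1 hG1f hK2G1 hG1c)
  -- the quadratic function on `G2`
  let i2 : K2.subgroupOf G2 →* K2 := (Subgroup.subgroupOfEquivOfLe hK2G2).toMonoidHom
  have hi2 : ∀ x, ((i2 x : K2) : G) = ((x : G2) : G) := fun x => rfl
  obtain ⟨ω, f, h1, h2, h3, h4, h5⟩ := exists_quad (G := G2) (K2.subgroupOf G2)
    (fun g h => by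
      rw [Subgroup.mem_subgroupOf]
      have := hG1c g (hG21 g.2) h (hG21 h.2)
      simpa [commutatorElement_def] using this)
    (ψ.comp (MonoidHom.toAdditive i2)) (by
      intro g x y hxy
      have h6 := hψi g g.2 (i2 x)
      have h7 : i2 y = ⟨(g : G) * (i2 x : K2) * (g : G)⁻¹, hK2n.conj_mem _ (i2 x).2 _⟩ := by
        refine Subtype.ext ?_
        rw [hi2]
        exact congrArg Subtype.val hxy
      change ψ (Additive.ofMul (i2 y)) = ψ (Additive.ofMul (i2 x))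
      rw [h7]; exact h6)
  refine ⟨G2, hG2f, ω, f, h1, h2, h3, h4, ?_, ?_⟩
  · -- `ω` vanishes on `K`
    have hz : ∀ a b : G2, (a : G) ∈ K2 → ω a b = 0 := by
      intro a b ha
      have hf1 : f 1 = 0 := by
        have := h4 1 1
        rw [one_mul, om_one_left ω h1] at this; linarith
      have hfi : ∀ g, f g⁻¹ = - f g + ω g g := by
        intro g
        have := h4 g g⁻¹
        rw [mul_inv_cancel, hf1, om_inv_right ω h2] at this; linarith
      have hgg : ∀ g, ω g g = 0 := fun g => by have := h3 g g; linarith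
      have hcm : f (b * a * b⁻¹) = f a + 2 * ω b a := by
        rw [h4, h4, hfi, hgg, h1, om_inv_right ω h2, om_inv_right ω h2, hgg, h3 a b]; ring
      have ha' : a ∈ K2.subgroupOf G2 := ha
      have hb' : b * a * b⁻¹ ∈ K2.subgroupOf G2 := by
        rw [Subgroup.mem_subgroupOf]
        exact hK2n.conj_mem _ ha b
      have e1 : f a = ψ (Additive.ofMul (i2 ⟨a, ha'⟩)) := h5 ⟨a, ha'⟩
      have e2 : f (b * a * b⁻¹) = ψ (Additive.ofMul (i2 ⟨_, hb'⟩)) := h5 ⟨_, hb'⟩
      have e3 := hψi b b.2 (i2 ⟨a, ha'⟩)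
      have e4 : i2 ⟨_, hb'⟩ = ⟨(b : G) * (i2 ⟨a, ha'⟩ : K2) * (b : G)⁻¹,
          hK2n.conj_mem _ (i2 ⟨a, ha'⟩).2 _⟩ := Subtype.ext rfl
      rw [e4, e3, ← e1] at e2
      have e5 : ω b a = 0 := by linarith
      rw [h3, e5, neg_zero]
    intro a b ha
    obtain ⟨m, hm, -, hxm⟩ := Subgroup.exists_pow_mem_of_index_ne_zero hLf.index_ne_zero
      (⟨(a : G), ha⟩ : K)
    have hp : ∀ k : ℕ, ω (a ^ k) b = k * ω a b := by
      intro k
      induction k with
      | zero => simp [om_one_left ω h1]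
      | succ k ih => rw [pow_succ, h1, ih]; push_cast; ring
    have h6 : ω (a ^ m) b = 0 := hz _ _ ⟨_, hxm, by simp⟩
    rw [hp] at h6
    exact (mul_eq_zero.1 h6).resolve_left (by exact_mod_cast hm.ne')
  · obtain ⟨x, hx⟩ : ∃ x, ψ x ≠ 0 := by
      by_contra hc
      push Not at hc
      exact hψ0 (AddMonoidHom.ext hc)
    refine ⟨⟨(Additive.toMul x : K2), hK2G2 (Additive.toMul x).2⟩, hK2K (Additive.toMul x).2, ?_⟩
    rw [h5 ⟨⟨(Additive.toMul x : K2), hK2G2 (Additive.toMul x).2⟩, (Additive.toMul x).2⟩]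
    exact hx

end Vale.Agent.P284.H409
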