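import Vale.Agent.P284.H409.SpecA
import Vale.Agent.P284.H409.Grp
import Vale.Agent.P284.H409.S6A

/-!
# P284, theorem A, groups (helper409): `GrpAStmt`, `GrpQStmt`, `FinAStmt`.
-/

open scoped commutatorElement Pointwise Topology

noncomputable section

namespace Vale.Agent.P284.H409.A

open Vale.Agent.P272.K Vale.Agent.P284.H248 Vale.Agent.P284.H894.V Vale.Agent.P284.H894.G
  Vale.Agent.P284.H409

section pull
variable {Γ Q : Type} [Group Γ] [Group Q] (q : Γ →* Q) (G : Subgroup Γ)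

/-- the preimage in `G` of a subgroup of the image of `G` -/
def pb (G2 : Subgroup (G.map q)) : Subgroup Γ := (G2.map (G.map q).subtype).comap q ⊓ G

theorem pb_le (G2 : Subgroup (G.map q)) : pb q G G2 ≤ G := inf_le_right

theorem pb_mem {G2 : Subgroup (G.map q)} {g : Γ} (hg : g ∈ pb q G G2) :
    (⟨q g, g, hg.2, rfl⟩ : G.map q) ∈ G2 := by
  obtain ⟨x, hx, hxq⟩ := hg.1
  have : (⟨q g, g, hg.2, rfl⟩ : G.map q) = x := Subtype.ext hxq.symm
  rw [this]; exact hx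

theorem mem_pb {G2 : Subgroup (G.map q)} {g : Γ} (hg : g ∈ G)
    (h : (⟨q g, g, hg, rfl⟩ : G.map q) ∈ G2) : g ∈ pb q G G2 :=
  ⟨⟨_, h, rfl⟩, hg⟩

/-- the projection -/
def th (G2 : Subgroup (G.map q)) : pb q G G2 →* G2 where
  toFun g := ⟨⟨q g, g, g.2.2, rfl⟩, pb_mem q G g.2⟩
  map_one' := Subtype.ext (Subtype.ext (map_one q))
  map_mul' _ _ := Subtype.ext (Subtype.ext (map_mul q _ _))

variable {q G}

theorem map_fi (hq : Function.Surjective q) (hG : G.FiniteIndex) : (G.map q).FiniteIndex := by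
  refine ⟨fun h => hG.index_ne_zero ?_⟩
  have := Subgroup.index_map_dvd G hq
  rw [h] at this
  exact Nat.eq_zero_of_zero_dvd this

theorem pb_fi (hq : Function.Surjective q) (hG : G.FiniteIndex) (G2 : Subgroup (G.map q))
    (h2 : G2.FiniteIndex) : (pb q G G2).FiniteIndex := by
  have h1 := map_fi hq hG
  have h3 : (G2.map (G.map q).subtype).FiniteIndex := by
    rw [Subgroup.finiteIndex_iff, Subgroup.index_map_subtype]
    exact mul_ne_zero h2.index_ne_zero h1.index_ne_zero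
  have h4 : ((G2.map (G.map q).subtype).comap q).FiniteIndex := by
    refine ⟨?_⟩
    rw [Subgroup.index_comap_of_surjective _ hq]
    exact h3.index_ne_zero
  unfold pb
  infer_instance

variable {N : ℕ} {c : Γ → Cm N} (hc : ∀ g ∈ G, ∀ h ∈ G, c (g * h) = c g + c h)

include hc in
theorem c_one : c 1 = 0 := by
  have := hc 1 G.one_mem 1 G.one_mem
  rw [one_mul] at this
  exact (left_eq_add.1 this)

include hc in
theorem c_inv {g : Γ} (hg : g ∈ G) : c g⁻¹ = - c g := by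
  have := hc g hg g⁻¹ (G.inv_mem hg)
  rw [mul_inv_cancel, c_one hc] at this
  exact (neg_eq_of_add_eq_zero_right this.symm).symm

include hc in
theorem c_pow {g : Γ} (hg : g ∈ G) (m : ℕ) : c (g ^ m) = (m : ℝ) • c g := by
  induction m with
  | zero => simp [c_one hc]
  | succ m ih =>
    rw [pow_succ, hc _ (G.pow_mem hg m) _ hg, ih]
    push_cast
    rw [add_smul, one_smul]

include hc in
theorem c_comm {g h : Γ} (hg : g ∈ G) (hh : h ∈ G) : ⁅g, h⁆ ∈ G ∧ c ⁅g, h⁆ = 0 := by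
  have m1 := G.mul_mem hg hh
  have m2 := G.mul_mem m1 (G.inv_mem hg)
  refine ⟨G.mul_mem m2 (G.inv_mem hh), ?_⟩
  rw [commutatorElement_def, hc _ m2 _ (G.inv_mem hh), hc _ m1 _ (G.inv_mem hg), hc _ hg _ hh,
    c_inv hc hg, c_inv hc hh]
  abel

include hc in
/-- the image of the commutators -/
theorem comm_im {K : Subgroup Γ} (hK : ∀ g, g ∈ K ↔ g ∈ G ∧ c g = 0) (g h : G.map q) :
    ⁅g, h⁆ ∈ (K.map q).subgroupOf (G.map q) := by
  obtain ⟨_, a, ha, rfl⟩ := g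
  obtain ⟨_, b, hb, rfl⟩ := h
  rw [Subgroup.mem_subgroupOf]
  refine ⟨⁅a, b⁆, (hK _).2 (c_comm hc ha hb), ?_⟩
  rw [map_commutatorElement]
  simp [commutatorElement_def]

include hc in
theorem pull (hq : Function.Surjective q) (hG : G.FiniteIndex) {K : Subgroup Γ}
    (hK : ∀ g, g ∈ K ↔ g ∈ G ∧ c g = 0)
    (hd : ∀ R : ℝ, {v | (∃ g ∈ G, c g = v) ∧ ‖v‖ ≤ R}.Finite)
    (hs : Submodule.span ℝ (c '' (G : Set Γ)) = ⊤)
    (G2 : Subgroup (G.map q)) (hG2 : G2.FiniteIndex) (ω : G2 → G2 → ℝ) (f : G2 → ℝ)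
    (h1 : ∀ a b c, ω (a * b) c = ω a c + ω b c) (h2 : ∀ a b c, ω a (b * c) = ω a b + ω a c)
    (h3 : ∀ a b, ω a b = - ω b a) (h4 : ∀ a b, f (a * b) = f a + f b + ω a b)
    (h5 : ∀ a b : G2, (a : G.map q) ∈ (K.map q).subgroupOf (G.map q) → ω a b = 0)
    (h6 : ∃ k : G2, (k : G.map q) ∈ (K.map q).subgroupOf (G.map q) ∧ f k ≠ 0) :
    ∃ G₂ : Subgroup Γ, G₂.FiniteIndex ∧ G₂ ≤ G ∧ ∃ (f : Γ → ℝ) (B : Cm N →ₗ[ℝ] Cm N →ₗ[ℝ] ℝ),
      (∀ g' ∈ G₂, ∀ g ∈ G₂, f (g' * g) = f g' + f g + B (c g') (c g)) ∧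
      ∃ k ∈ G₂, c k = 0 ∧ f k ≠ 0 := by
  classical
  have hfi := pb_fi hq hG G2 hG2
  set P := pb q G G2 with hP
  have hPG : P ≤ G := pb_le q G G2
  have hs2 : Submodule.span ℝ (Set.range fun g : P => c (g : Γ)) = ⊤ := by
    rw [eq_top_iff, ← hs, Submodule.span_le]
    rintro _ ⟨g, hg, rfl⟩
    obtain ⟨m, hm, -, hgm⟩ := Subgroup.exists_pow_mem_of_index_ne_zero hfi.index_ne_zero g
    have h6 : (m : ℝ) • c g ∈ Submodule.span ℝ (Set.range fun g : P => c (g : Γ)) := by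
      refine Submodule.subset_span ⟨⟨_, hgm⟩, ?_⟩
      exact c_pow hc hg m
    have h7 : (m : ℝ) ≠ 0 := by exact_mod_cast hm.ne'
    have h8 := Submodule.smul_mem _ ((m : ℝ)⁻¹) h6
    rwa [smul_smul, inv_mul_cancel₀ h7, one_smul] at h8
  have hd2 : ∀ R : ℝ, {v | (∃ g : P, c (g : Γ) = v) ∧ ‖v‖ ≤ R}.Finite := by
    intro R
    refine (hd R).subset ?_
    rintro v ⟨⟨g, hg⟩, hv⟩
    exact ⟨⟨_, hPG g.2, hg⟩, hv⟩
  let t := th q G G2
  have hz : ∀ a b : P, c (a : Γ) = 0 → ω (t a) (t b) = 0 := by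
    intro a b ha
    refine h5 _ _ ?_
    rw [Subgroup.mem_subgroupOf]
    exact ⟨a, (hK a).2 ⟨hPG a.2, ha⟩, rfl⟩
  obtain ⟨B, hB⟩ := exists_bilin (fun g : P => c (g : Γ)) (fun g h => hc _ (hPG g.2) _ (hPG h.2))
    hd2 hs2 (fun a b => ω (t a) (t b)) (fun a b d => by rw [map_mul, h1])
    (fun a b d => by rw [map_mul, h2]) hz (fun a b hb => by rw [h3, hz b a hb, neg_zero])
  refine ⟨P, hfi, hPG, fun g => if h : g ∈ P then f (t ⟨g, h⟩) else 0, B, ?_, ?_⟩
  · intro g' hg' g hg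
    simp only [dif_pos hg', dif_pos hg, dif_pos (P.mul_mem hg' hg)]
    have e : (⟨g' * g, P.mul_mem hg' hg⟩ : P) = ⟨g', hg'⟩ * ⟨g, hg⟩ := rfl
    rw [e, map_mul, h4]
    congr 1
    exact hB ⟨g', hg'⟩ ⟨g, hg⟩
  · obtain ⟨⟨⟨_, k, hk, rfl⟩, hk2⟩, hkK, hfk⟩ := h6
    obtain ⟨k', hk', hkk⟩ := (Subgroup.mem_subgroupOf.1 hkK : q k ∈ K.map q)
    have hk'G := ((hK k').1 hk')
    have hk'P : k' ∈ P := by
      refine mem_pb q G hk'G.1 ?_
      have : (⟨q k', k', hk'G.1, rfl⟩ : G.map q) = ⟨q k, k, hk, rfl⟩ := Subtype.ext hkk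
      rw [this]; exact hk2
    refine ⟨k', hk'P, hk'G.2, ?_⟩
    simp only [dif_pos hk'P]
    have e : t ⟨k', hk'P⟩ = ⟨⟨q k, k, hk, rfl⟩, hk2⟩ := Subtype.ext (Subtype.ext hkk)
    rw [e]; exact hfk

end pull

/-- the homomorphism to `ℝ` on a subgroup of finite index -/
theorem exists_H {A : Type} [Group A] (K : Subgroup A) (G : Subgroup A) (hKG : K ≤ G)
    (hfg : Group.FG K) (hv : VirtIndicable K) :
    Group.FG (K.subgroupOf G) ∧ ∃ (H : Subgroup (K.subgroupOf G)) (_ : H.FiniteIndex)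
      (φ : Additive H →+ ℝ), φ ≠ 0 := by
  let e : K.subgroupOf G ≃* K := Subgroup.subgroupOfEquivOfLe hKG
  refine ⟨Group.fg_of_surjective (f := e.symm.toMonoidHom) e.symm.surjective, ?_⟩
  obtain ⟨H, hHf, φ, hφ⟩ := hv
  let H' : Subgroup (K.subgroupOf G) := H.comap e.toMonoidHom
  have hH' : H'.FiniteIndex := by
    refine ⟨?_⟩
    rw [Subgroup.index_comap_of_surjective _ e.surjective]
    exact hHf.index_ne_zero
  let j : H' →* H := (e.toMonoidHom.comp H'.subtype).codRestrict H fun x => x.2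
  let φ' : Additive H' →+ ℝ := (Int.castAddHom ℝ).comp
    ((MonoidHom.toAdditiveLeft φ).comp (MonoidHom.toAdditive j))
  have hφ'v : ∀ x : H', φ' (Additive.ofMul x) = ((Multiplicative.toAdd (φ (j x)) : ℤ) : ℝ) :=
    fun x => rfl
  refine ⟨H', hH', φ', ?_⟩
  obtain ⟨x, hx⟩ := hφ (Multiplicative.ofAdd 1)
  intro h0
  have hx' : (e.symm (x : K)) ∈ H' := by
    change e (e.symm (x : K)) ∈ H
    rw [MulEquiv.apply_symm_apply]; exact x.2
  have h1 := hφ'v ⟨_, hx'⟩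
  have h2 : j ⟨_, hx'⟩ = x := by
    refine Subtype.ext ?_
    change e (e.symm (x : K)) = x
    rw [MulEquiv.apply_symm_apply]
  rw [h2, hx, h0] at h1
  simp at h1

theorem grpQStmt : GrpQStmt := by
  intro Γ Q _ _ q hq hfg hgr G K hGi N c hc hK hd hs hKfg hKv
  have hKG : K ≤ G := fun g hg => ((hK g).1 hg).1
  have hQfg : Group.FG Q := Group.fg_of_surjective hq
  have hMi := map_fi hq hGi
  have hMfg : Group.FG (G.map q) := Subgroup.fg_of_index_ne_zero _
  have hQ : SubExp Q := hgr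
  obtain ⟨hfg', H, hH, φ, hφ⟩ := exists_H (K.map q) (G.map q) (Subgroup.map_mono hKG) hKfg hKv
  obtain ⟨G2, hG2f, ω, f, h1, h2, h3, h4, h5, h6⟩ := grp_core (hQ.subgroup (G.map q))
    ((K.map q).subgroupOf (G.map q)) (comm_im hc hK) H φ hφ
  exact pull hc hq hGi hK hd hs G2 hG2f ω f h1 h2 h3 h4 h5 h6

theorem grpAStmt : GrpAStmt := by
  intro Γ Q _ _ q hq hfg G K hGi N c hc hK hd hs hKfg hKv hU
  classical
  have hKG : K ≤ G := fun g hg => ((hK g).1 hg).1
  have hQfg : Group.FG Q := Group.fg_of_surjective hq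
  have hMi := map_fi hq hGi
  have hMfg : Group.FG (G.map q) := Subgroup.fg_of_index_ne_zero _
  obtain ⟨hfg', H, hH, φ₀, hφ₀⟩ := exists_H (K.map q) (G.map q) (Subgroup.map_mono hKG) hKfg hKv
  obtain ⟨G2, hG2f, ω, f, h1, h2, h3, h4, h5, h6⟩ := grp_coreA
    ((K.map q).subgroupOf (G.map q)) (comm_im hc hK) H φ₀ hφ₀ (by
      intro K2 hK2n hK2K hK2fg G1 hG1f hK2G1 hcomm g₀ hg₀ ψ hψ μ hμ
      by_contra hne
      obtain ⟨φ, d, hφ, hd1, hd0, hdm, hdμ⟩ := exists_char_eig K2 G1 hcomm hg₀ hψ hμ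
      have hμ1 : μ - 1 ≠ 0 := by
        intro h0
        rw [sub_eq_zero] at h0
        rw [h0] at hne
        simp at hne
      have hact : ∀ (g : G1) (x y : K2), ((y : K2) : G.map q) = g * x * (g : G.map q)⁻¹ →
          φ (Additive.ofMul y) = d g * φ (Additive.ofMul x) := by
        intro g x y hxy
        have h7 := DFunLike.congr_fun (hd1 g) (Additive.ofMul x)
        rw [rh_apply] at h7
        have e : y = ⟨(g : G.map q) * x * (g : G.map q)⁻¹, hK2n.conj_mem _ x.2 g⟩ :=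
          Subtype.ext hxy
        rw [e]; exact h7
      have hadd : ∀ x y z : K2, ((z : K2) : G.map q) = x * y →
          φ (Additive.ofMul z) = φ (Additive.ofMul x) + φ (Additive.ofMul y) := by
        intro x y z h
        have : z = x * y := Subtype.ext h
        rw [this, ofMul_mul, map_add]
      have hfi := pb_fi hq hGi G1 hG1f
      set P := pb q G G1 with hP
      let t := th q G G1
      let F : G1 → ℂ := fun g => φ (Additive.ofMul ⟨⁅g₀, (g : G.map q)⁆, hcomm _ hg₀ _ g.2⟩) / (μ - 1)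
      have hF : ∀ a b : G1, F (a * b) = F a + d a * F b := by
        intro a b
        have e1 : ⁅g₀, (a : G.map q) * b⁆ = ⁅g₀, (a : G.map q)⁆ * (a * ⁅g₀, (b : G.map q)⁆ * (a : G.map q)⁻¹) := by
          simp only [commutatorElement_def]; group
        have e2 := hadd ⟨⁅g₀, (a : G.map q)⁆, hcomm _ hg₀ _ a.2⟩
          ⟨(a : G.map q) * ⁅g₀, (b : G.map q)⁆ * (a : G.map q)⁻¹, hK2n.conj_mem _ (hcomm _ hg₀ _ b.2) _⟩
          ⟨⁅g₀, ((a * b : G1) : G.map q)⁆, hcomm _ hg₀ _ (a * b).2⟩ e1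
        have e3 := hact a ⟨⁅g₀, (b : G.map q)⁆, hcomm _ hg₀ _ b.2⟩
          ⟨(a : G.map q) * ⁅g₀, (b : G.map q)⁆ * (a : G.map q)⁻¹, hK2n.conj_mem _ (hcomm _ hg₀ _ b.2) _⟩ rfl
        simp only [F]
        rw [e2, e3]; ring
      have hdone : ∀ x : G1, (x : G.map q) ∈ K2 → d x = 1 := by
        intro x hx
        have h7 := hd1 x
        rw [rh_mem K2 hx] at h7
        have h8 : (d x - 1) • φ = 0 := by
          rw [sub_smul, ← h7, one_smul]
          exact sub_self φ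
        rcases smul_eq_zero.1 h8 with h9 | h9
        · exact sub_eq_zero.1 h9
        · exact absurd h9 hφ
      have hFx : ∀ (x : K2), F ⟨x, hK2G1 x.2⟩ = φ (Additive.ofMul x) := by
        intro x
        have e1 : ⁅g₀, ((x : K2) : G.map q)⁆ = (g₀ * x * g₀⁻¹) * ((x⁻¹ : K2) : G.map q) := by
          simp [commutatorElement_def]
        have e2 := hadd ⟨g₀ * x * g₀⁻¹, hK2n.conj_mem _ x.2 _⟩ x⁻¹
          ⟨⁅g₀, ((x : K2) : G.map q)⁆, hcomm _ hg₀ _ (hK2G1 x.2)⟩ e1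
        have e3 := hact ⟨g₀, hg₀⟩ x ⟨g₀ * x * g₀⁻¹, hK2n.conj_mem _ x.2 _⟩ rfl
        simp only [F]
        rw [e2, e3, hdμ, ofMul_inv, map_neg]
        field_simp
        ring
      have hUn := hU P hfi (pb_le q G G1) (fun g => if h : g ∈ P then d (t ⟨g, h⟩) else 0)
        (fun g => if h : g ∈ P then F (t ⟨g, h⟩) else 0)
        (fun g hg => by simp only [dif_pos hg]; exact hd0 _)
        (fun g hg h hh => by
          simp only [dif_pos hg, dif_pos hh, dif_pos (P.mul_mem hg hh)]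
          have e : (⟨g * h, P.mul_mem hg hh⟩ : P) = ⟨g, hg⟩ * ⟨h, hh⟩ := rfl
          rw [e, map_mul, hdm])
        (fun g hg h hh => by
          simp only [dif_pos hg, dif_pos hh, dif_pos (P.mul_mem hg hh)]
          have e : (⟨g * h, P.mul_mem hg hh⟩ : P) = ⟨g, hg⟩ * ⟨h, hh⟩ := rfl
          rw [e, map_mul, hF])
        (by
          obtain ⟨_, a, ha, rfl⟩ := g₀
          have haP : a ∈ P := mem_pb q G ha hg₀
          refine ⟨a, haP, ?_⟩
          simp only [dif_pos haP]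
          have e : t ⟨a, haP⟩ = ⟨_, hg₀⟩ := rfl
          rw [e, hdμ]; exact hne)
      refine hφ ?_
      ext x₀
      let x : K2 := Additive.toMul x₀
      change φ (Additive.ofMul x) = 0
      obtain ⟨k, hk, hkx⟩ := (Subgroup.mem_subgroupOf.1 (hK2K x.2) :
        (((x : K2) : G.map q) : Q) ∈ K.map q)
      have hkG := (hK k).1 hk
      have hxe : (⟨q k, k, hkG.1, rfl⟩ : G.map q) = x := Subtype.ext hkx
      have hkP : k ∈ P := mem_pb q G hkG.1 (by rw [hxe]; exact hK2G1 x.2)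
      have ht : t ⟨k, hkP⟩ = ⟨x, hK2G1 x.2⟩ := Subtype.ext hxe
      have h7 := hUn k hkP hkG.2 (by
        simp only [dif_pos hkP]
        rw [ht]; exact hdone _ x.2)
      simp only [dif_pos hkP] at h7
      rw [ht, hFx] at h7
      exact h7)
  exact pull hc hq hGi hK hd hs G2 hG2f ω f h1 h2 h3 h4 h5 h6

theorem finAStmt : FinAStmt := by
  intro Γ Q _ _ q hq hfg G K hGi N c hc hK hfin
  have hKG : K ≤ G := fun g hg => ((hK g).1 hg).1
  have hQfg : Group.FG Q := Group.fg_of_surjective hq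
  have hMi := map_fi hq hGi
  have hMfg : Group.FG (G.map q) := Subgroup.fg_of_index_ne_zero _
  let KG : Subgroup (G.map q) := (K.map q).subgroupOf (G.map q)
  have hKGf : Finite KG :=
    Finite.of_equiv _ (Subgroup.subgroupOfEquivOfLe (Subgroup.map_mono hKG)).symm.toEquiv
  obtain ⟨A, hA, -, hAc⟩ := finite_by_abelian KG ⊥ (by
    rw [Subgroup.relIndex_bot_left]
    exact Nat.card_pos.ne') (comm_im hc hK)
  refine ⟨A.map (G.map q).subtype, ?_, ?_⟩
  · rw [Subgroup.finiteIndex_iff, Subgroup.index_map_subtype]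
    exact mul_ne_zero hA.index_ne_zero hMi.index_ne_zero
  · rintro _ ⟨x, hx, rfl⟩ _ ⟨y, hy, rfl⟩
    have h1 := hAc x hx y hy
    rw [Subgroup.mem_bot, commutatorElement_eq_one_iff_mul_comm] at h1
    exact congrArg Subtype.val h1

end Vale.Agent.P284.H409.A
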