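import Mathlib

/-!
# P284, row S6 (helper409): in a group of subexponential growth the conjugation action on the
homomorphisms `K → ℝ` of a finitely generated normal subgroup `K` with virtually abelian quotient has,
after passing to a subgroup of finite index, a nonzero fixed vector.
-/

open scoped Pointwise commutatorElement
open Module

noncomputable section

namespace Vale.Agent.P284.H409

/-! ### words -/

section Words
variable {G : Type*} [Group G]

/-- the word `k^{b_0} g k^{b_1} g ...` -/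
def w (g k : G) : List Bool → G
  | [] => 1
  | b :: l => (cond b k 1) * g * w g k l

/-- the value `∑ b_j χ^j` -/
def sv (χ : ℂ) : List Bool → ℂ
  | [] => 0
  | b :: l => (cond b 1 0) + χ * sv χ l

theorem sv_sep {χ : ℂ} (hχ : 3 ≤ ‖χ‖) : ∀ l l' : List Bool, l.length = l'.length → l ≠ l' →
    1 ≤ ‖sv χ l - sv χ l'‖
  | [], [], _, h => absurd rfl h
  | [], _ :: _, h, _ => by simp at h
  | _ :: _, [], h, _ => by simp at h
  | b :: l, b' :: l', hlen, h => by
    have hlen' : l.length = l'.length := by simpa using hlen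
    by_cases hl : l = l'
    · subst hl
      have hb : b ≠ b' := fun e => h (by rw [e])
      have : sv χ (b :: l) - sv χ (b' :: l) = (cond b 1 0 : ℂ) - cond b' 1 0 := by
        simp only [sv]; ring
      rw [this]
      cases b <;> cases b' <;> simp_all
    · have h1 := sv_sep hχ l l' hlen' hl
      have e : sv χ (b :: l) - sv χ (b' :: l') =
          χ * (sv χ l - sv χ l') - ((cond b' 1 0 : ℂ) - cond b 1 0) := by
        simp only [sv]; ring
      have h2 : ‖((cond b' 1 0 : ℂ) - cond b 1 0)‖ ≤ 1 := by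
        cases b <;> cases b' <;> simp
      have h3 : 3 ≤ ‖χ * (sv χ l - sv χ l')‖ := by
        rw [norm_mul]; nlinarith [norm_nonneg χ]
      rw [e]
      have := norm_sub_norm_le (χ * (sv χ l - sv χ l')) ((cond b' 1 0 : ℂ) - cond b 1 0)
      linarith

variable (K : Subgroup G) [hK : K.Normal]

theorem w_mem (g : G) (k : K) : ∀ l : List Bool, w g (k : G) l * (g ^ l.length)⁻¹ ∈ K
  | [] => by simp [w]
  | b :: l => by
    have h1 := w_mem g k l
    have h2 := hK.conj_mem _ h1 g
    have e : w g (k : G) (b :: l) * (g ^ (b :: l).length)⁻¹ =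
        (cond b (k : G) 1) * (g * (w g (k : G) l * (g ^ l.length)⁻¹) * g⁻¹) := by
      simp only [w, List.length_cons, pow_succ]
      group
    rw [e]
    refine K.mul_mem ?_ h2
    cases b
    · exact K.one_mem
    · exact k.2

theorem w_val {g : G} {k : K} {χ : ℂ} (φ : Additive K →+ ℂ)
    (hφ : ∀ x : K, φ (Additive.ofMul ⟨g * x * g⁻¹, hK.conj_mem _ x.2 g⟩) = χ * φ (Additive.ofMul x)) :
    ∀ l : List Bool, φ (Additive.ofMul ⟨_, w_mem K g k l⟩) = sv χ l * φ (Additive.ofMul k)
  | [] => by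
    have : (⟨_, w_mem K g k []⟩ : K) = 1 := by
      ext; simp [w]
    rw [this]; simp [sv]
  | b :: l => by
    have ih := w_val φ hφ (k := k) l
    have e : (⟨_, w_mem K g k (b :: l)⟩ : K) =
        (cond b k 1) * ⟨g * (⟨_, w_mem K g k l⟩ : K) * g⁻¹, hK.conj_mem _ (w_mem K g k l) g⟩ := by
      ext
      simp only [w, List.length_cons, pow_succ, Subgroup.coe_mul]
      cases b <;> (simp; try group)
    rw [e, ofMul_mul, map_add, hφ, ih]
    cases b <;> simp [sv] <;> ring

theorem w_mem_pow (g k : G) : ∀ l : List Bool, w g k l ∈ ({g, k * g} : Set G) ^ l.length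
  | [] => by simp [w]
  | b :: l => by
    rw [List.length_cons, pow_succ']
    refine Set.mul_mem_mul ?_ (w_mem_pow g k l)
    cases b <;> simp

theorem fin_pow {G : Type*} [Group G] {S : Set G} (hS : S.Finite) : ∀ m : ℕ, (S ^ m).Finite
  | 0 => by rw [pow_zero]; exact Set.finite_one
  | m + 1 => by rw [pow_succ]; exact (fin_pow hS m).mul hS

/-- exponential growth from an eigenvalue of modulus at least three -/
theorem two_pow_le {g : G} {k : K} {χ : ℂ} (hχ : 3 ≤ ‖χ‖) (φ : Additive K →+ ℂ)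
    (hφ : ∀ x : K, φ (Additive.ofMul ⟨g * x * g⁻¹, hK.conj_mem _ x.2 g⟩) = χ * φ (Additive.ofMul x))
    (hk : φ (Additive.ofMul k) ≠ 0) (m : ℕ) :
    2 ^ m ≤ (({g, (k : G) * g} : Set G) ^ m).ncard := by
  classical
  have hfin : (({g, (k : G) * g} : Set G) ^ m).Finite := fin_pow (by simp) m
  let f : List.Vector Bool m → G := fun v => w g (k : G) v.toList
  have hf : Function.Injective f := by
    intro v v' h
    by_contra hne
    have hl : v.toList.length = v'.toList.length := by simp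
    have hne' : v.toList ≠ v'.toList := fun e => hne (Subtype.ext e)
    have h1 := sv_sep hχ _ _ hl hne'
    have h2 := w_val K (k := k) φ hφ v.toList
    have h3 := w_val K (k := k) φ hφ v'.toList
    have h4 : (⟨_, w_mem K g k v.toList⟩ : K) = ⟨_, w_mem K g k v'.toList⟩ := by
      ext
      have : w g (k : G) v.toList = w g (k : G) v'.toList := h
      simp only [this, hl]
    rw [h4, h3] at h2
    have h5 := mul_right_cancel₀ hk h2
    rw [h5, sub_self, norm_zero] at h1
    linarith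
  have hmaps : Set.range f ⊆ ({g, (k : G) * g} : Set G) ^ m := by
    rintro _ ⟨v, rfl⟩
    have := w_mem_pow g (k : G) v.toList
    simpa [List.Vector.toList_length] using this
  have h1 : (Set.range f).ncard ≤ (({g, (k : G) * g} : Set G) ^ m).ncard :=
    Set.ncard_le_ncard hmaps hfin
  have h2 : (Set.range f).ncard = 2 ^ m := by
    rw [← Set.image_univ, Set.ncard_image_of_injective _ hf, Set.ncard_univ, Nat.card_eq_fintype_card,
      card_vector, Fintype.card_bool]
  omega

end Words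

/-! ### the conjugation action on the homomorphisms `K → ℂ` -/

section Act
variable {G : Type*} [Group G] (K : Subgroup G) [hK : K.Normal]

/-- conjugation by `g` on `K`, as an additive homomorphism -/
def cj (g : G) : Additive K →+ Additive K := MonoidHom.toAdditive (MulAut.conjNormal g : MulAut K).toMonoidHom

theorem cj_apply (g : G) (x : K) : cj K g (Additive.ofMul x) =
    Additive.ofMul ⟨g * x * g⁻¹, hK.conj_mem _ x.2 g⟩ := by
  simp only [cj]
  rfl

/-- the operator `φ ↦ φ ∘ (conjugation by g)` -/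
def rh (g : G) : Module.End ℂ (Additive K →+ ℂ) where
  toFun φ := φ.comp (cj K g)
  map_add' _ _ := rfl
  map_smul' _ _ := rfl

theorem rh_apply (g : G) (φ : Additive K →+ ℂ) (x : K) : rh K g φ (Additive.ofMul x) =
    φ (Additive.ofMul ⟨g * x * g⁻¹, hK.conj_mem _ x.2 g⟩) := by
  rw [← cj_apply]; rfl

theorem rh_one : rh K (1 : G) = 1 := by
  ext φ x
  change rh K 1 φ (Additive.ofMul x) = φ (Additive.ofMul x)
  rw [rh_apply]
  congr 2
  ext; simp

theorem rh_mul (g h : G) : rh K (g * h) = rh K h * rh K g := by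
  ext φ x
  change rh K (g * h) φ (Additive.ofMul x) = rh K h (rh K g φ) (Additive.ofMul x)
  rw [rh_apply, rh_apply, rh_apply]
  congr 2
  ext; simp [mul_assoc]

theorem rh_pow (g : G) (m : ℕ) : rh K (g ^ m) = rh K g ^ m := by
  induction m with
  | zero => rw [pow_zero, pow_zero, rh_one]
  | succ m ih => rw [pow_succ', rh_mul, ih, pow_succ]

theorem rh_mem {k : G} (hk : k ∈ K) : rh K k = 1 := by
  ext φ x
  change rh K k φ (Additive.ofMul x) = φ (Additive.ofMul x)
  rw [rh_apply]
  have e : (⟨k * x * k⁻¹, hK.conj_mem _ x.2 k⟩ : K) = ⟨k, hk⟩ * x * ⟨k, hk⟩⁻¹ := by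
    ext; simp
  rw [e, ofMul_mul, ofMul_mul, ofMul_inv, map_add, map_add, map_neg]
  ring

theorem rh_comm {g h : G} (hgh : ⁅g, h⁆ ∈ K) : Commute (rh K g) (rh K h) := by
  have h1 : g * h = ⁅g, h⁆ * (h * g) := by
    simp [commutatorElement_def, mul_assoc]
  have h2 : rh K (g * h) = rh K (h * g) := by
    rw [h1, rh_mul, rh_mem K hgh, mul_one]
  rw [rh_mul, rh_mul] at h2
  exact h2.symm

theorem rh_inv (g : G) : rh K g * rh K g⁻¹ = 1 := by
  rw [← rh_mul, inv_mul_cancel, rh_one]

/-! ### eigenvalues are roots of unity -/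

/-- subexponential growth (the definition of `P284/H894/G/Defs.lean`, unfolded) -/
def SubExp (G : Type*) [Group G] : Prop := ∀ S : Set G, S.Finite → ∀ ε : ℝ, 0 < ε →
  ∃ C : ℝ, ∀ k : ℕ, ((S ^ k).ncard : ℝ) ≤ C * Real.exp (ε * k)

theorem SubExp.false_of {G : Type*} [Group G] (hG : SubExp G) {S : Set G} (hS : S.Finite)
    (h : ∀ m : ℕ, 2 ^ m ≤ (S ^ m).ncard) : False := by
  obtain ⟨C, hC⟩ := hG S hS (Real.log 2 / 2) (by positivity)
  have h1 : ∀ m : ℕ, (2 : ℝ) ^ m ≤ C * Real.exp (Real.log 2 / 2 * m) := fun m =>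
    le_trans (by exact_mod_cast h m) (hC m)
  have h2 : ∀ m : ℕ, Real.exp (Real.log 2 / 2 * m) ≤ C := by
    intro m
    have h3 := h1 m
    have e : (2 : ℝ) ^ m = Real.exp (Real.log 2 / 2 * m) * Real.exp (Real.log 2 / 2 * m) := by
      rw [← Real.exp_add, ← Real.rpow_natCast, Real.rpow_def_of_pos (by norm_num)]
      congr 1; ring
    rw [e] at h3
    exact le_of_mul_le_mul_right h3 (Real.exp_pos _)
  have h3 : Filter.Tendsto (fun m : ℕ => Real.exp (Real.log 2 / 2 * m)) Filter.atTop Filter.atTop := by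
    refine Real.tendsto_exp_atTop.comp ?_
    exact Filter.Tendsto.const_mul_atTop (by positivity) tendsto_natCast_atTop_atTop
  obtain ⟨m, hm⟩ := (h3.eventually (Filter.eventually_gt_atTop C)).exists
  exact absurd (h2 m) (not_le.2 hm)

variable {K}

theorem norm_le_one (hG : SubExp G) {g : G} {φ : Additive K →+ ℂ} (hφ : φ ≠ 0) {χ : ℂ}
    (h : rh K g φ = χ • φ) : ‖χ‖ ≤ 1 := by
  by_contra hlt
  push Not at hlt
  obtain ⟨N, hN⟩ := pow_unbounded_of_one_lt 3 hlt
  obtain ⟨a, ha⟩ : ∃ a, φ a ≠ 0 := by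
    by_contra hcon
    push Not at hcon
    exact hφ (by ext x; exact hcon x)
  have h1 : ∀ N : ℕ, rh K (g ^ N) φ = χ ^ N • φ := by
    intro N
    rw [rh_pow]
    induction N with
    | zero => simp
    | succ N ih => rw [pow_succ', Module.End.mul_apply, ih, map_smul, h, smul_smul, pow_succ]
  refine hG.false_of (S := {g ^ N, ((Additive.toMul a : K) : G) * g ^ N}) (by simp) fun m => ?_
  refine two_pow_le K (χ := χ ^ N) (by rw [norm_pow]; exact hN.le) φ (fun x => ?_) ha m
  have := DFunLike.congr_fun (h1 N) (Additive.ofMul x)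
  rw [rh_apply] at this
  exact this

theorem norm_eq_one (hG : SubExp G) {g : G} {φ : Additive K →+ ℂ} (hφ : φ ≠ 0) {χ : ℂ}
    (h : rh K g φ = χ • φ) : ‖χ‖ = 1 := by
  refine le_antisymm (norm_le_one hG hφ h) ?_
  have hi : rh K g⁻¹ (rh K g φ) = φ := by
    rw [← Module.End.mul_apply, ← rh_mul, mul_inv_cancel, rh_one]; rfl
  have hχ : χ ≠ 0 := by
    rintro rfl
    rw [zero_smul] at h
    rw [h, map_zero] at hi
    exact hφ hi.symm
  have h1 : rh K g⁻¹ φ = χ⁻¹ • φ := by
    rw [h, map_smul] at hi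
    rw [← hi, smul_smul, inv_mul_cancel₀ hχ, one_smul, hi]
  have h2 := norm_le_one hG hφ h1
  rw [norm_inv] at h2
  exact (inv_le_one₀ (norm_pos_iff.2 hχ)).1 h2

/-- an eigenvalue is integral -/
theorem isInt [hfg : Group.FG K] {g : G} {φ : Additive K →+ ℂ} (hφ : φ ≠ 0) {χ : ℂ}
    (h : rh K g φ = χ • φ) : IsIntegral ℤ χ := by
  obtain ⟨a, ha⟩ : ∃ a, φ a ≠ 0 := by
    by_contra hcon
    push Not at hcon
    exact hφ (by ext x; exact hcon x)
  have hfg' : φ.range.FG := by
    have h1 : AddGroup.FG (Additive K) := inferInstance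
    have h2 : AddGroup.FG φ.range := AddGroup.fg_range φ
    exact (AddGroup.fg_iff_addSubgroup_fg _).1 h2
  refine isIntegral_of_smul_mem_submodule (R := ℤ) (A := ℂ) (M := ℂ)
    (AddSubgroup.toIntSubmodule φ.range) ?_ ?_ χ ?_
  · intro h0
    have : φ a ∈ AddSubgroup.toIntSubmodule φ.range := ⟨a, rfl⟩
    rw [h0, Submodule.mem_bot] at this
    exact ha this
  · rw [Submodule.fg_iff_addSubgroup_fg]
    exact hfg'
  · rintro _ ⟨x, rfl⟩
    refine ⟨cj K g x, ?_⟩
    have := DFunLike.congr_fun h x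
    exact this

/-- an eigenvalue is a root of unity -/
theorem pow_eq_one [hfg : Group.FG K] (hG : SubExp G) {g : G} {φ : Additive K →+ ℂ} (hφ : φ ≠ 0)
    {χ : ℂ} (h : rh K g φ = χ • φ) : ∃ n : ℕ, 0 < n ∧ χ ^ n = 1 := by
  have hint : IsIntegral ℤ χ := isInt hφ h
  have hintQ : IsIntegral ℚ χ := hint.tower_top
  let L : IntermediateField ℚ ℂ := IntermediateField.adjoin ℚ {χ}
  have : FiniteDimensional ℚ L := IntermediateField.adjoin.finiteDimensional hintQ
  have : NumberField L := ⟨⟩
  let x : L := ⟨χ, IntermediateField.mem_adjoin_simple_self ℚ χ⟩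
  have hx : IsIntegral ℤ x := by
    have : IsIntegral ℤ (algebraMap L ℂ x) := hint
    exact (isIntegral_algebraMap_iff (algebraMap L ℂ).injective).1 this
  obtain ⟨a, ha⟩ : ∃ a, φ a ≠ 0 := by
    by_contra hcon
    push Not at hcon
    exact hφ (by ext x; exact hcon x)
  obtain ⟨ℓ, hℓ⟩ : ∃ ℓ : Module.Dual L ℂ, ℓ (φ a) ≠ 0 := by
    by_contra hcon
    push Not at hcon
    exact ha ((Module.forall_dual_apply_eq_zero_iff L (φ a)).1 hcon)
  have h1 : ∀ σ : L →+* ℂ, ‖σ x‖ = 1 := by
    intro σ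
    let ψ : Additive K →+ ℂ := (σ : L →+ ℂ).comp ((ℓ : ℂ →+ L).comp φ)
    have hψ : ψ ≠ 0 := by
      intro h0
      have h2 : σ (ℓ (φ a)) = 0 := DFunLike.congr_fun h0 a
      exact hℓ ((map_eq_zero σ).1 h2)
    refine norm_eq_one (K := K) hG hψ (g := g) ?_
    ext y
    change σ (ℓ (rh K g φ (Additive.ofMul y))) = σ x * σ (ℓ (φ (Additive.ofMul y)))
    rw [h, AddMonoidHom.smul_apply, ← map_mul]
    congr 1
    have : χ • φ (Additive.ofMul y) = x • φ (Additive.ofMul y) := rfl
    rw [this, map_smul]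
    rfl
  obtain ⟨n, hn, hn1⟩ := NumberField.Embeddings.pow_eq_one_of_norm_eq_one L ℂ hx h1
  refine ⟨n, hn, ?_⟩
  have := congrArg (algebraMap L ℂ) hn1
  simpa using this

variable (K) in
theorem finDim [hfg : Group.FG K] : FiniteDimensional ℂ (Additive K →+ ℂ) := by
  obtain ⟨S, hS⟩ := Group.FG.out (G := K)
  let ev : (Additive K →+ ℂ) →ₗ[ℂ] (S → ℂ) :=
    { toFun := fun φ s => φ (Additive.ofMul s.1)
      map_add' := fun _ _ => rfl
      map_smul' := fun _ _ => rfl }
  refine FiniteDimensional.of_injective ev ?_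
  intro φ ψ h
  let T : Subgroup K :=
    { carrier := {x | φ (Additive.ofMul x) = ψ (Additive.ofMul x)}
      mul_mem' := fun {a b} ha hb => by
        simp only [Set.mem_ofPred_eq, ofMul_mul, map_add] at *
        rw [ha, hb]
      one_mem' := by simp
      inv_mem' := fun {a} ha => by
        simp only [Set.mem_ofPred_eq, ofMul_inv, map_neg] at *
        rw [ha] }
  have h1 : T = ⊤ := by
    rw [eq_top_iff, ← hS, Subgroup.closure_le]
    intro s hs
    exact congrFun h ⟨s, hs⟩
  ext x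
  have : (x : K) ∈ T := h1 ▸ Subgroup.mem_top x
  exact this

/-- commuting operators have a common eigenvector -/
theorem common {V : Type*} [AddCommGroup V] [Module ℂ V] [FiniteDimensional ℂ V] [Nontrivial V]
    {ι : Type*} (T : ι → Module.End ℂ V) (hT : ∀ i j, Commute (T i) (T j)) (s : Finset ι) :
    ∃ W : Submodule ℂ V, W ≠ ⊥ ∧ (∀ i, ∀ v ∈ W, T i v ∈ W) ∧ ∀ i ∈ s, ∃ c : ℂ, ∀ v ∈ W, T i v = c • v := by
  classical
  induction s using Finset.induction_on with
  | empty => exact ⟨⊤, top_ne_bot, fun _ _ _ => Submodule.mem_top, by simp⟩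
  | insert j s hj ih =>
    obtain ⟨W, hW, hinv, hsc⟩ := ih
    have : Nontrivial W := Submodule.nontrivial_iff_ne_bot.2 hW
    obtain ⟨c, hc⟩ := Module.End.exists_eigenvalue ((T j).restrict (hinv j))
    obtain ⟨v, hv⟩ := hc.exists_hasEigenvector
    refine ⟨W ⊓ LinearMap.ker (T j - c • 1), ?_, ?_, ?_⟩
    · intro h0
      have h1 : (v : V) ∈ W ⊓ LinearMap.ker (T j - c • 1) := by
        refine ⟨v.2, LinearMap.mem_ker.2 ?_⟩
        have h2 : T j (v : V) = c • (v : V) := by
          have := congrArg Subtype.val hv.apply_eq_smul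
          simpa using this
        change T j (v : V) - c • (v : V) = 0
        rw [h2, sub_self]
      rw [h0, Submodule.mem_bot] at h1
      exact hv.2 (Subtype.ext h1)
    · rintro i v ⟨hv1, hv2⟩
      have h0 : T j v - c • v = 0 := LinearMap.mem_ker.1 hv2
      refine ⟨hinv i v hv1, LinearMap.mem_ker.2 ?_⟩
      have h1 : T j (T i v) = T i (T j v) := by
        have := LinearMap.congr_fun (hT j i) v
        exact this
      change T j (T i v) - c • (T i v) = 0
      rw [h1, sub_eq_zero.1 h0, map_smul, sub_self]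
    · intro i hi
      rcases Finset.mem_insert.1 hi with rfl | hi
      · refine ⟨c, fun v hv => ?_⟩
        have h0 := LinearMap.mem_ker.1 hv.2
        exact sub_eq_zero.1 h0
      · obtain ⟨c', hc'⟩ := hsc i hi
        exact ⟨c', fun v hv => hc' v hv.1⟩

variable (K) in
/-- **S6.** -/
theorem s6 (hG : SubExp G) [hGfg : Group.FG G] [hfg : Group.FG K]
    (hne : ∃ φ : Additive K →+ ℝ, φ ≠ 0) (G1 : Subgroup G) [hfi : G1.FiniteIndex] (hKG1 : K ≤ G1)
    (hcomm : ∀ g ∈ G1, ∀ h ∈ G1, ⁅g, h⁆ ∈ K) :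
    ∃ G2 : Subgroup G, G2 ≤ G1 ∧ G2.FiniteIndex ∧ K ≤ G2 ∧ ∃ φ : Additive K →+ ℝ, φ ≠ 0 ∧
      ∀ g ∈ G2, ∀ x : K, φ (Additive.ofMul ⟨g * x * g⁻¹, hK.conj_mem _ x.2 g⟩) =
        φ (Additive.ofMul x) := by
  classical
  have hfd := finDim K
  have hnt : Nontrivial (Additive K →+ ℂ) := by
    obtain ⟨φ, hφ⟩ := hne
    refine ⟨(Complex.ofRealHom : ℝ →+ ℂ).comp φ, 0, fun h => hφ ?_⟩
    ext x
    have := DFunLike.congr_fun h (Additive.ofMul x)
    exact Complex.ofReal_injective this
  have hG1fg : Group.FG G1 := Subgroup.fg_of_index_ne_zero G1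
  obtain ⟨S, hS⟩ := Group.FG.out (G := G1)
  obtain ⟨W, hW, hinv, hsc⟩ := common (fun g : G1 => rh K (g : G))
    (fun g h => rh_comm K (hcomm g g.2 h h.2)) S
  obtain ⟨φ, hφW, hφ⟩ := Submodule.exists_mem_ne_zero_of_ne_bot hW
  -- all of `G1` acts by scalars on `φ`
  have hsc' : ∀ g : G1, ∃ c : ℂ, rh K (g : G) φ = c • φ := by
    have h1 : Subgroup.closure (S : Set G1) = ⊤ := hS
    intro g
    have hg : g ∈ Subgroup.closure (S : Set G1) := h1 ▸ Subgroup.mem_top g
    induction hg using Subgroup.closure_induction with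
    | mem x hx =>
      obtain ⟨c, hc⟩ := hsc x hx
      exact ⟨c, hc φ hφW⟩
    | one => exact ⟨1, by rw [Subgroup.coe_one, rh_one]; simp⟩
    | mul x y _ _ hx hy =>
      obtain ⟨c, hc⟩ := hx
      obtain ⟨d, hd⟩ := hy
      refine ⟨c * d, ?_⟩
      rw [Subgroup.coe_mul, rh_mul, Module.End.mul_apply, hc, map_smul, hd, smul_smul]
    | inv x _ hx =>
      obtain ⟨c, hc⟩ := hx
      refine ⟨c⁻¹, ?_⟩
      have hi : rh K (x : G)⁻¹ (rh K x φ) = φ := by
        rw [← Module.End.mul_apply, ← rh_mul, mul_inv_cancel, rh_one]; rfl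
      have hc0 : c ≠ 0 := by
        rintro rfl
        rw [hc, zero_smul, map_zero] at hi
        exact hφ hi.symm
      rw [hc, map_smul] at hi
      rw [Subgroup.coe_inv]
      calc rh K (x : G)⁻¹ φ = c⁻¹ • (c • rh K (x : G)⁻¹ φ) := by
            rw [smul_smul, inv_mul_cancel₀ hc0, one_smul]
        _ = c⁻¹ • φ := by rw [hi]
  choose c hc using hsc'
  have hc0 : ∀ g, c g ≠ 0 := by
    intro g h0
    obtain ⟨n, hn, h1⟩ := pow_eq_one hG hφ (hc g)
    rw [h0, zero_pow hn.ne'] at h1
    exact zero_ne_one h1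
  have hinj : ∀ a b : ℂ, a • φ = b • φ → a = b := fun a b h => by
    by_contra hne'
    have : (a - b) • φ = 0 := by rw [sub_smul, h, sub_self]
    rcases smul_eq_zero.1 this with h1 | h1
    · exact hne' (sub_eq_zero.1 h1)
    · exact hφ h1
  let χ : G1 →* ℂˣ :=
    { toFun := fun g => Units.mk0 (c g) (hc0 g)
      map_one' := by
        ext
        refine hinj _ _ ?_
        simp only [Units.val_mk0, Units.val_one, one_smul]
        rw [← hc, Subgroup.coe_one, rh_one]; rfl
      map_mul' := fun g h => by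
        ext
        refine hinj _ _ ?_
        simp only [Units.val_mk0, Units.val_mul]
        rw [← hc, Subgroup.coe_mul, rh_mul, Module.End.mul_apply, hc g, map_smul, hc h, smul_smul] }
  have hfin : Finite χ.range := by
    have h1 : Group.FG χ.range := Group.fg_range χ
    refine CommGroup.finite_of_fg_isMulTorsion _ ?_
    rintro ⟨_, g, rfl⟩
    obtain ⟨n, hn, h1⟩ := pow_eq_one hG hφ (hc g)
    rw [isOfFinOrder_iff_pow_eq_one]
    refine ⟨n, hn, ?_⟩
    ext
    simpa [χ] using h1
  have hker : χ.ker.FiniteIndex := inferInstance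
  refine ⟨χ.ker.map G1.subtype, ?_, ?_, ?_, ?_⟩
  · exact Subgroup.map_subtype_le _
  · rw [Subgroup.finiteIndex_iff, Subgroup.index_map_subtype]
    exact mul_ne_zero hker.index_ne_zero hfi.index_ne_zero
  · intro k hk
    refine ⟨⟨k, hKG1 hk⟩, ?_, rfl⟩
    have : χ ⟨k, hKG1 hk⟩ = 1 := by
      ext
      refine hinj _ _ ?_
      simp only [χ, MonoidHom.coe_mk, OneHom.coe_mk, Units.val_mk0, Units.val_one, one_smul]
      rw [← hc, rh_mem K hk]; rfl
    exact this
  · have hfix : ∀ g ∈ χ.ker.map G1.subtype, ∀ x : K,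
        φ (Additive.ofMul ⟨g * x * g⁻¹, hK.conj_mem _ x.2 g⟩) = φ (Additive.ofMul x) := by
      rintro _ ⟨g, hg, rfl⟩ x
      have h1 : c g = 1 := congrArg Units.val (show χ g = 1 from hg)
      have h2 := DFunLike.congr_fun (hc g) (Additive.ofMul x)
      rw [h1, one_smul, rh_apply] at h2
      exact h2
    by_cases hre : Complex.reAddGroupHom.comp φ = 0
    · refine ⟨Complex.imAddGroupHom.comp φ, fun him => hφ ?_, fun g hg x => ?_⟩
      · ext x
        refine Complex.ext ?_ ?_
        · exact DFunLike.congr_fun hre (Additive.ofMul x)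
        · exact DFunLike.congr_fun him (Additive.ofMul x)
      · exact congrArg Complex.im (hfix g hg x)
    · exact ⟨Complex.reAddGroupHom.comp φ, hre, fun g hg x => congrArg Complex.re (hfix g hg x)⟩

end Act

end Vale.Agent.P284.H409
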